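import Vale.Agent.P344.Defs

namespace Vale.P344

open Finset

/-! Row AD: gate elimination on the rows `0` and `1`. -/

namespace AD

section Gen

variable {V W : Type*} [AddCommGroup V] [Module ℂ V] [AddCommGroup W] [Module ℂ W]

theorem map_getD (f : V →ₗ[ℂ] W) (v : List V) (i : ℕ) : (v.map f).getD i 0 = f (v.getD i 0) := by
  rw [List.getD_eq_getElem?_getD, List.getD_eq_getElem?_getD, List.getElem?_map]
  cases v[i]? <;> simp

theorem eval_map (f : V →ₗ[ℂ] W) (v : List V) (g : Gate) : g.eval (v.map f) = f (g.eval v) := by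
  cases g with
  | add i j => simp only [Gate.eval, map_getD, map_add]
  | sub i j => simp only [Gate.eval, map_getD, map_sub]
  | smul c i => simp only [Gate.eval, map_getD, map_smul]

theorem run_map (f : V →ₗ[ℂ] W) (C : List Gate) (v : List V) :
    run C (v.map f) = (run C v).map f := by
  induction C generalizing v with
  | nil => rfl
  | cons g C ih =>
    simp only [run]
    rw [eval_map, ← ih, List.map_append]
    rfl

/-- linear dependence of two vectors -/
def Dep (a b : V) : Prop := a = 0 ∨ ∃ c : ℂ, b = c • a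

theorem Dep.map (f : V →ₗ[ℂ] W) {a b : V} (h : Dep a b) : Dep (f a) (f b) := by
  rcases h with h | ⟨c, h⟩
  · left; rw [h, map_zero]
  · right; exact ⟨c, by rw [h, map_smul]⟩

theorem dep_zero_right (a : V) : Dep a 0 := Or.inr ⟨0, by rw [zero_smul]⟩

/-- the gate is an addition or subtraction with independent operands -/
def Ess (v : List V) : Gate → Prop
  | .add i j => ¬ Dep (v.getD i 0) (v.getD j 0)
  | .sub i j => ¬ Dep (v.getD i 0) (v.getD j 0)
  | .smul _ _ => False

open Classical in
/-- number of essential additions -/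
noncomputable def ess : List Gate → List V → ℕ
  | [], _ => 0
  | g :: C, v => (if Ess v g then 1 else 0) + ess C (v ++ [g.eval v])

theorem ess_le_adds (C : List Gate) (v : List V) : ess C v ≤ adds C := by
  induction C generalizing v with
  | nil => exact le_rfl
  | cons g C ih =>
    have h := ih (v ++ [g.eval v])
    cases g with
    | add i j =>
      simp only [ess, adds]
      split_ifs <;> omega
    | sub i j =>
      simp only [ess, adds]
      split_ifs <;> omega
    | smul c i =>
      have hs : ¬ Ess v (Gate.smul c i) := fun h => h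
      simp only [ess, adds]
      rw [if_neg hs]
      omega

end Gen

variable {n : ℕ}

/-- a multiple of the unit vector `l` -/
def On (l : Fin n) (a : Fin n → ℂ) : Prop := ∃ c : ℂ, a = Pi.single l c

theorem On.smul {l : Fin n} {a : Fin n → ℂ} (h : On l a) (c : ℂ) : On l (c • a) := by
  obtain ⟨d, rfl⟩ := h
  exact ⟨c * d, by rw [← Pi.single_smul, smul_eq_mul]⟩

theorem on_zero (l : Fin n) : On l (0 : Fin n → ℂ) := ⟨0, by rw [Pi.single_zero]⟩

/-- the gate is essential and one of its operands is a multiple of `e_l` -/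
def EssL (l : Fin n) (v : List (Fin n → ℂ)) : Gate → Prop
  | .add i j => ¬ Dep (v.getD i 0) (v.getD j 0) ∧ (On l (v.getD i 0) ∨ On l (v.getD j 0))
  | .sub i j => ¬ Dep (v.getD i 0) (v.getD j 0) ∧ (On l (v.getD i 0) ∨ On l (v.getD j 0))
  | .smul _ _ => False

open Classical in
/-- number of essential additions with an operand proportional to `e_l` -/
noncomputable def essL (l : Fin n) : List Gate → List (Fin n → ℂ) → ℕ
  | [], _ => 0
  | g :: C, v => (if EssL l v g then 1 else 0) + essL l C (v ++ [g.eval v])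

/-- the projection which kills `e_l` -/
def kill (l : Fin n) : (Fin n → ℂ) →ₗ[ℂ] (Fin n → ℂ) where
  toFun a := fun i => if i = l then 0 else a i
  map_add' a b := by
    funext i
    by_cases h : i = l <;> simp [h]
  map_smul' c a := by
    funext i
    by_cases h : i = l <;> simp [h]

theorem kill_apply (l : Fin n) (a : Fin n → ℂ) (i : Fin n) :
    kill l a i = if i = l then 0 else a i := rfl

theorem kill_on {l : Fin n} {a : Fin n → ℂ} (h : On l a) : kill l a = 0 := by
  obtain ⟨c, rfl⟩ := h
  funext i
  rw [kill_apply]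
  by_cases hi : i = l
  · rw [if_pos hi]; rfl
  · rw [if_neg hi, Pi.single_eq_of_ne hi]; rfl

theorem ess_kill (l : Fin n) (C : List Gate) (v : List (Fin n → ℂ)) :
    ess C (v.map (kill l)) + essL l C v ≤ ess C v := by
  induction C generalizing v with
  | nil => exact le_rfl
  | cons g C ih =>
    have h := ih (v ++ [g.eval v])
    have hm : (v ++ [g.eval v]).map (kill l) = v.map (kill l) ++ [g.eval (v.map (kill l))] := by
      rw [List.map_append, eval_map]
      rfl
    rw [hm] at h
    simp only [ess, essL]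
    have key : ∀ a b : Fin n → ℂ, (¬ Dep a b ∧ (On l a ∨ On l b)) →
        Dep (kill l a) (kill l b) := by
      rintro a b ⟨_, h1 | h1⟩
      · left; exact kill_on h1
      · rw [kill_on h1]; exact dep_zero_right _
    have hstep : (Ess (v.map (kill l)) g → Ess v g) ∧ (EssL l v g → Ess v g) ∧
        (EssL l v g → ¬ Ess (v.map (kill l)) g) := by
      cases g with
      | add i j =>
        simp only [Ess, EssL, map_getD]
        exact ⟨fun h1 h2 => h1 (h2.map _), fun h1 => h1.1, fun h1 h2 => h2 (key _ _ h1)⟩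
      | sub i j =>
        simp only [Ess, EssL, map_getD]
        exact ⟨fun h1 h2 => h1 (h2.map _), fun h1 => h1.1, fun h1 h2 => h2 (key _ _ h1)⟩
      | smul c i =>
        exact ⟨fun h => h, fun h => h, fun h => absurd h id⟩
    obtain ⟨h1, h2, h3⟩ := hstep
    by_cases e1 : EssL l v g
    · rw [if_pos e1, if_pos (h2 e1), if_neg (h3 e1)]
      omega
    · rw [if_neg e1]
      by_cases e2 : Ess (v.map (kill l)) g
      · rw [if_pos e2, if_pos (h1 e2)]
        omega
      · rw [if_neg e2]
        omega

/-- the third class of phase two: coordinates `i`, `j` proportional to `α`, `β` -/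
def InW (i j : Fin n) (α β : ℂ) (a : Fin n → ℂ) : Prop := β * a i = α * a j

/-- the three classes -/
def Cls (i j : Fin n) (α β : ℂ) (a : Fin n → ℂ) : Prop := On i a ∨ On j a ∨ InW i j α β a

theorem Cls.smul {i j : Fin n} {α β : ℂ} {a : Fin n → ℂ} (h : Cls i j α β a) (c : ℂ) :
    Cls i j α β (c • a) := by
  rcases h with h | h | h
  · exact Or.inl (h.smul c)
  · exact Or.inr (Or.inl (h.smul c))
  · refine Or.inr (Or.inr ?_)
    unfold InW at h ⊢
    rw [Pi.smul_apply, Pi.smul_apply, smul_eq_mul, smul_eq_mul]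
    linear_combination c * h

theorem cls_zero (i j : Fin n) (α β : ℂ) : Cls i j α β 0 := Or.inl (on_zero i)

theorem getD_prop {V : Type*} [Zero V] (P : V → Prop) {v : List V} (hv : ∀ u ∈ v, P u) (h0 : P 0)
    (i : ℕ) : P (v.getD i 0) := by
  by_cases hi : i < v.length
  · rw [List.getD_eq_getElem _ _ hi]
    exact hv _ (List.getElem_mem hi)
  · rw [List.getD_eq_default _ _ (not_lt.1 hi)]
    exact h0

theorem append_prop {V : Type*} (P : V → Prop) {v : List V} (hv : ∀ u ∈ v, P u) {w : V} (hw : P w) :
    ∀ u ∈ v ++ [w], P u := by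
  intro u hu
  rw [List.mem_append, List.mem_singleton] at hu
  rcases hu with hu | rfl
  · exact hv u hu
  · exact hw

/-- dependent operands: the result is a multiple of an operand -/
theorem dep_result {V : Type*} [AddCommGroup V] [Module ℂ V] (P : V → Prop)
    (hP : ∀ (c : ℂ) (u : V), P u → P (c • u)) {a b : V} (ha : P a) (hb : P b) (h : Dep a b)
    (e : ℂ) : P (a + e • b) := by
  rcases h with h | ⟨c, h⟩
  · rw [h, zero_add]; exact hP _ _ hb
  · rw [h, smul_smul]
    have : a + (e * c) • a = (1 + e * c) • a := by rw [add_smul, one_smul]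
    rw [this]
    exact hP _ _ ha

theorem phase2_step {i j : Fin n} {α β : ℂ} {a b : Fin n → ℂ} (ha : Cls i j α β a)
    (hb : Cls i j α β b) (hi : ¬ (¬ Dep a b ∧ (On i a ∨ On i b)))
    (hj : ¬ (¬ Dep a b ∧ (On j a ∨ On j b))) (e : ℂ) : Cls i j α β (a + e • b) := by
  by_cases hd : Dep a b
  · exact dep_result (Cls i j α β) (fun c u hu => hu.smul c) ha hb hd e
  · have h1 : ¬ On i a ∧ ¬ On i b := by
      rw [← not_or]; exact fun h => hi ⟨hd, h⟩
    have h2 : ¬ On j a ∧ ¬ On j b := by
      rw [← not_or]; exact fun h => hj ⟨hd, h⟩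
    have ha' : InW i j α β a := by
      rcases ha with h | h | h
      · exact absurd h h1.1
      · exact absurd h h2.1
      · exact h
    have hb' : InW i j α β b := by
      rcases hb with h | h | h
      · exact absurd h h1.2
      · exact absurd h h2.2
      · exact h
    refine Or.inr (Or.inr ?_)
    unfold InW at ha' hb' ⊢
    rw [Pi.add_apply, Pi.add_apply, Pi.smul_apply, Pi.smul_apply, smul_eq_mul, smul_eq_mul]
    linear_combination ha' + e * hb'

theorem phase2 {i j : Fin n} {α β : ℂ} (C : List Gate) (v : List (Fin n → ℂ))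
    (hv : ∀ u ∈ v, Cls i j α β u) (hi : essL i C v = 0) (hj : essL j C v = 0) :
    ∀ u ∈ run C v, Cls i j α β u := by
  induction C generalizing v with
  | nil => exact hv
  | cons g C ih =>
    simp only [essL] at hi hj
    rw [Nat.add_eq_zero_iff] at hi hj
    have hi1 : ¬ EssL i v g := by
      intro h; rw [if_pos h] at hi; exact absurd hi.1 one_ne_zero
    have hj1 : ¬ EssL j v g := by
      intro h; rw [if_pos h] at hj; exact absurd hj.1 one_ne_zero
    have hg := fun k => getD_prop (Cls i j α β) hv (cls_zero i j α β) k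
    refine ih _ (append_prop _ hv ?_) hi.2 hj.2
    cases g with
    | add a b =>
      have := phase2_step (hg a) (hg b) hi1 hj1 1
      rwa [one_smul] at this
    | sub a b =>
      have := phase2_step (hg a) (hg b) hi1 hj1 (-1)
      rwa [neg_one_smul, ← sub_eq_add_neg] at this
    | smul c a => exact (hg a).smul c

/-- a multiple of a unit vector in `J` -/
def Sgl (J : Finset (Fin n)) (a : Fin n → ℂ) : Prop := a = 0 ∨ ∃ l ∈ J, On l a

theorem Sgl.smul {J : Finset (Fin n)} {a : Fin n → ℂ} (h : Sgl J a) (c : ℂ) : Sgl J (c • a) := by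
  rcases h with h | ⟨l, hl, h⟩
  · left; rw [h, smul_zero]
  · exact Or.inr ⟨l, hl, h.smul c⟩

/-- conclusion of phase one -/
def Concl (J : Finset (Fin n)) (C : List Gate) (v : List (Fin n → ℂ)) : Prop :=
  (∀ u ∈ run C v, Sgl J u) ∨ (∃ l ∈ J, 2 ≤ essL l C v) ∨
    ∃ i ∈ J, ∃ j ∈ J, i ≠ j ∧ ∃ α β : ℂ, α ≠ 0 ∧ β ≠ 0 ∧ ∀ u ∈ run C v, Cls i j α β u

theorem sgl_cls {J : Finset (Fin n)} {i j : Fin n} {α β : ℂ} {a : Fin n → ℂ} (h : Sgl J a) :
    Cls i j α β a := by
  rcases h with h | ⟨l, _, c, h⟩
  · rw [h]; exact cls_zero i j α β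
  · by_cases hi : l = i
    · left; exact ⟨c, by rw [h, hi]⟩
    · by_cases hj : l = j
      · right; left; exact ⟨c, by rw [h, hj]⟩
      · right; right
        unfold InW
        rw [h, Pi.single_eq_of_ne (Ne.symm hi), Pi.single_eq_of_ne (Ne.symm hj)]
        ring

/-- an essential operation on two multiples of unit vectors -/
theorem phase1_step {J : Finset (Fin n)} {a b : Fin n → ℂ} (ha : Sgl J a) (hb : Sgl J b)
    (hd : ¬ Dep a b) (e : ℂ) (he : e ≠ 0) :
    ∃ i ∈ J, ∃ j ∈ J, i ≠ j ∧ On i a ∧ On j b ∧ ∃ α β : ℂ, α ≠ 0 ∧ β ≠ 0 ∧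
      InW i j α β (a + e • b) := by
  have ha0 : a ≠ 0 := fun h => hd (Or.inl h)
  have hb0 : b ≠ 0 := fun h => hd (h ▸ dep_zero_right a)
  rcases ha with h | ⟨i, hi, c, hc⟩
  · exact absurd h ha0
  rcases hb with h | ⟨j, hj, d, hdd⟩
  · exact absurd h hb0
  have hc0 : c ≠ 0 := by
    intro h; rw [h, Pi.single_zero] at hc; exact ha0 hc
  have hd0 : d ≠ 0 := by
    intro h; rw [h, Pi.single_zero] at hdd; exact hb0 hdd
  have hij : i ≠ j := by
    intro h
    apply hd
    right
    refine ⟨d / c, ?_⟩
    rw [hc, hdd, ← h, ← Pi.single_smul, smul_eq_mul, div_mul_cancel₀ _ hc0]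
  refine ⟨i, hi, j, hj, hij, ⟨c, hc⟩, ⟨d, hdd⟩, c, e * d, hc0, mul_ne_zero he hd0, ?_⟩
  unfold InW
  rw [hc, hdd]
  rw [Pi.add_apply, Pi.add_apply, Pi.smul_apply, Pi.smul_apply, Pi.single_eq_same,
    Pi.single_eq_same, Pi.single_eq_of_ne hij, Pi.single_eq_of_ne (Ne.symm hij), smul_eq_mul,
    smul_eq_mul]
  ring

theorem phase1 (J : Finset (Fin n)) (C : List Gate) (v : List (Fin n → ℂ))
    (hv : ∀ u ∈ v, Sgl J u) : Concl J C v := by
  induction C generalizing v with
  | nil => exact Or.inl hv
  | cons g C ih =>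
    have hg := fun k => getD_prop (Sgl J) hv (Or.inl rfl) k
    -- non essential steps
    have hpass : Sgl J (g.eval v) → Concl J (g :: C) v := by
      intro hs
      rcases ih _ (append_prop _ hv hs) with h | ⟨l, hl, h⟩ | h
      · exact Or.inl h
      · refine Or.inr (Or.inl ⟨l, hl, ?_⟩)
        simp only [essL]
        omega
      · exact Or.inr (Or.inr h)
    -- essential steps
    have hess : ∀ (a b : Fin n → ℂ) (e : ℂ), e ≠ 0 → Sgl J a → Sgl J b → ¬ Dep a b →
        g.eval v = a + e • b → (∀ l, EssL l v g ↔ ¬ Dep a b ∧ (On l a ∨ On l b)) →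
        Concl J (g :: C) v := by
      intro a b e he ha hb hd hval hE
      obtain ⟨i, hi, j, hj, hij, hoi, hoj, α, β, hα, hβ, hW⟩ := phase1_step ha hb hd e he
      have hEi : EssL i v g := (hE i).2 ⟨hd, Or.inl hoi⟩
      have hEj : EssL j v g := (hE j).2 ⟨hd, Or.inr hoj⟩
      by_cases h1 : essL i C (v ++ [g.eval v]) = 0
      · by_cases h2 : essL j C (v ++ [g.eval v]) = 0
        · refine Or.inr (Or.inr ⟨i, hi, j, hj, hij, α, β, hα, hβ, ?_⟩)
          refine phase2 C _ (append_prop _ (fun u hu => sgl_cls (hv u hu)) ?_) h1 h2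
          rw [hval]
          exact Or.inr (Or.inr hW)
        · refine Or.inr (Or.inl ⟨j, hj, ?_⟩)
          simp only [essL]
          rw [if_pos hEj]
          omega
      · refine Or.inr (Or.inl ⟨i, hi, ?_⟩)
        simp only [essL]
        rw [if_pos hEi]
        omega
    cases g with
    | add a b =>
      by_cases hd : Dep (v.getD a 0) (v.getD b 0)
      · apply hpass
        have := dep_result (Sgl J) (fun c u hu => hu.smul c) (hg a) (hg b) hd 1
        rwa [one_smul] at this
      · exact hess _ _ 1 one_ne_zero (hg a) (hg b) hd (by rw [one_smul]; rfl) (fun l => Iff.rfl)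
    | sub a b =>
      by_cases hd : Dep (v.getD a 0) (v.getD b 0)
      · apply hpass
        have := dep_result (Sgl J) (fun c u hu => hu.smul c) (hg a) (hg b) hd (-1)
        rwa [neg_one_smul, ← sub_eq_add_neg] at this
      · exact hess _ _ (-1) (neg_ne_zero.2 one_ne_zero) (hg a) (hg b) hd
          (by rw [neg_one_smul, ← sub_eq_add_neg]; rfl) (fun l => Iff.rfl)
    | smul c a =>
      apply hpass
      exact (hg a).smul c

theorem main (k : ℕ) : ∀ (J : Finset (Fin n)), J.card = k → ∀ (C : List Gate)
    (v : List (Fin n → ℂ)) (s t : Fin n → ℂ), (∀ u ∈ v, Sgl J u) → s ∈ run C v → t ∈ run C v →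
    (∀ j ∈ J, s j ≠ 0 ∧ t j ≠ 0) → (∀ i ∈ J, ∀ j ∈ J, i ≠ j → s i * t j ≠ s j * t i) →
    2 * k - 2 ≤ ess C v := by
  induction k with
  | zero => intros; omega
  | succ k ih =>
    intro J hJ C v s t hv hs ht hne hdet
    rcases Nat.eq_zero_or_pos k with hk | hk
    · subst hk; omega
    obtain ⟨a, ha, b, hb, hab⟩ := Finset.one_lt_card.1 (by omega : 1 < J.card)
    rcases phase1 J C v hv with h | ⟨l, hl, h⟩ | ⟨i, hi, j, hj, hij, α, β, hα, hβ, h⟩
    · exfalso
      rcases h s hs with h0 | ⟨l, _, c, hc⟩
      · apply (hne a ha).1; rw [h0]; rfl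
      · by_cases hal : a = l
        · apply (hne b hb).1
          rw [hc, Pi.single_eq_of_ne (fun e => hab (hal.trans e.symm))]
        · apply (hne a ha).1
          rw [hc, Pi.single_eq_of_ne hal]
    · have hkill := ess_kill l C v
      have hcard : (J.erase l).card = k := by
        rw [Finset.card_erase_of_mem hl, hJ]; rfl
      have := ih (J.erase l) hcard C (v.map (kill l)) (kill l s) (kill l t) ?_ ?_ ?_ ?_ ?_
      · omega
      · intro u hu
        rw [List.mem_map] at hu
        obtain ⟨u, hu, rfl⟩ := hu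
        rcases hv u hu with h0 | ⟨l', hl', h0⟩
        · left; rw [h0, map_zero]
        · by_cases hll : l' = l
          · left; rw [hll] at h0; exact kill_on h0
          · right
            refine ⟨l', Finset.mem_erase.2 ⟨hll, hl'⟩, ?_⟩
            obtain ⟨c, hc⟩ := h0
            refine ⟨c, ?_⟩
            funext x
            rw [kill_apply, hc]
            by_cases hx : x = l
            · rw [if_pos hx, hx, Pi.single_eq_of_ne (Ne.symm hll)]
            · rw [if_neg hx]
      · rw [run_map]; exact List.mem_map.2 ⟨s, hs, rfl⟩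
      · rw [run_map]; exact List.mem_map.2 ⟨t, ht, rfl⟩
      · intro j hj
        rw [Finset.mem_erase] at hj
        rw [kill_apply, kill_apply, if_neg hj.1, if_neg hj.1]
        exact hne j hj.2
      · intro i hi j hj hij
        rw [Finset.mem_erase] at hi hj
        rw [kill_apply, kill_apply, kill_apply, kill_apply, if_neg hi.1, if_neg hi.1,
          if_neg hj.1, if_neg hj.1]
        exact hdet i hi.2 j hj.2 hij
    · exfalso
      have key : ∀ u ∈ run C v, (∀ j ∈ J, u j ≠ 0) → β * u i = α * u j := by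
        intro u hu hnz
        rcases h u hu with ⟨c, hc⟩ | ⟨c, hc⟩ | hw
        · exact absurd (by rw [hc, Pi.single_eq_of_ne (Ne.symm hij)]) (hnz j hj)
        · exact absurd (by rw [hc, Pi.single_eq_of_ne hij]) (hnz i hi)
        · exact hw
      have h1 := key s hs (fun j hj => (hne j hj).1)
      have h2 := key t ht (fun j hj => (hne j hj).2)
      apply hdet i hi j hj hij
      have h3 : α * β * (s i * t j) = α * β * (s j * t i) := by
        linear_combination (α * t j) * h1 - (α * s j) * h2
      exact mul_left_cancel₀ (mul_ne_zero hα hβ) h3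

end AD

open AD in
theorem adds_ge {n : ℕ} (hn : 0 < n) {C : List Gate} (h : Computes n C) :
    2 * n - 2 ≤ adds C := by
  rcases Nat.lt_or_ge n 2 with h2 | h2
  · omega
  obtain ⟨out, hout⟩ := h
  set v : List (Fin n → ℂ) := 0 :: List.ofFn (fun i : Fin n => (Pi.single i 1 : Fin n → ℂ)) with hv
  -- the value of a form at `x`
  let ev : (Fin n → ℂ) → ((Fin n → ℂ) →ₗ[ℂ] ℂ) := fun x =>
    { toFun := fun a => ∑ j, a j * x j
      map_add' := fun a b => by
        rw [← Finset.sum_add_distrib]
        exact Finset.sum_congr rfl (fun j _ => by rw [Pi.add_apply]; ring)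
      map_smul' := fun c a => by
        rw [smul_eq_mul, Finset.mul_sum]
        exact Finset.sum_congr rfl (fun j _ => by rw [Pi.smul_apply, smul_eq_mul]; simp [mul_assoc]) }
  have hev : ∀ x, v.map (ev x) = 0 :: List.ofFn x := by
    intro x
    rw [hv, List.map_cons, map_zero, List.map_ofFn]
    congr 1
    congr 1
    funext i
    change ∑ j, (Pi.single i (1 : ℂ) : Fin n → ℂ) j * x j = x i
    rw [Finset.sum_eq_single i]
    · rw [Pi.single_eq_same, one_mul]
    · intro j _ hj
      rw [Pi.single_eq_of_ne hj, zero_mul]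
    · intro hi; exact absurd (Finset.mem_univ i) hi
  -- the outputs as forms
  have hcoord : ∀ k : Fin n, ∀ l : Fin n,
      ((run C v).getD (out k) 0) l = zeta n ^ ((l : ℕ) * (k : ℕ)) := by
    intro k l
    have h1 := hout (Pi.single l 1) k
    rw [← hev (Pi.single l 1), run_map, map_getD] at h1
    have h3 : ∀ a : Fin n → ℂ, ev (Pi.single l 1) a = a l := by
      intro a
      change ∑ j, a j * (Pi.single l (1 : ℂ) : Fin n → ℂ) j = a l
      rw [Finset.sum_eq_single l]
      · rw [Pi.single_eq_same, mul_one]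
      · intro j _ hj
        rw [Pi.single_eq_of_ne hj, mul_zero]
      · intro hi; exact absurd (Finset.mem_univ l) hi
    rw [h3] at h1
    rw [h1, Finset.sum_eq_single l]
    · rw [Pi.single_eq_same, mul_one]
    · intro j _ hj
      rw [Pi.single_eq_of_ne hj, mul_zero]
    · intro hi; exact absurd (Finset.mem_univ l) hi
  have hprim : IsPrimitiveRoot (zeta n) n := Complex.isPrimitiveRoot_exp n (by omega)
  have hz0 : zeta n ≠ 0 := hprim.ne_zero (by omega)
  have hmem : ∀ k : Fin n, (run C v).getD (out k) 0 ∈ run C v := by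
    intro k
    by_cases hk : out k < (run C v).length
    · rw [List.getD_eq_getElem _ _ hk]
      exact List.getElem_mem hk
    · exfalso
      have h1 := hcoord k k
      rw [List.getD_eq_default _ _ (not_lt.1 hk)] at h1
      exact pow_ne_zero _ hz0 h1.symm
  have hfin := main n Finset.univ (by rw [Finset.card_univ, Fintype.card_fin]) C v
    ((run C v).getD (out ⟨0, by omega⟩) 0) ((run C v).getD (out ⟨1, by omega⟩) 0) ?_
    (hmem _) (hmem _) ?_ ?_
  · exact hfin.trans (ess_le_adds C v)
  · intro u hu
    rw [hv, List.mem_cons] at hu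
    rcases hu with hu | hu
    · exact Or.inl hu
    · rw [List.mem_ofFn] at hu
      obtain ⟨i, rfl⟩ := hu
      exact Or.inr ⟨i, Finset.mem_univ _, 1, rfl⟩
  · intro j _
    rw [hcoord, hcoord]
    exact ⟨pow_ne_zero _ hz0, pow_ne_zero _ hz0⟩
  · intro i _ j _ hij
    rw [hcoord, hcoord, hcoord, hcoord]
    simp only [mul_zero, pow_zero, one_mul, mul_one]
    intro he
    apply hij
    exact Fin.ext (hprim.pow_inj j.2 i.2 he).symm

end Vale.P344
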