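import Vale.Agent.P344.CB

namespace Vale.P344

open Finset Matrix

/-! Row BA: a basis of a subspace whose maximal minors are bounded by one: take any basis matrix
`Q`, choose the rows `I` maximising `|det Q_I|`, put `R = Q Q_I⁻¹`. -/

open scoped ComplexOrder in
theorem mulVec_eq_zero_of_gram {n m : ℕ} (A : Matrix (Fin n) (Fin m) ℂ) (v : Fin m → ℂ)
    (h : (Aᴴ * A) *ᵥ v = 0) : A *ᵥ v = 0 :=
  (Matrix.conjTranspose_mul_self_mulVec_eq_zero A v).1 h

theorem exists_good_basis {n m : ℕ} (K : Submodule ℂ (Fin n → ℂ)) (hm : Module.finrank ℂ K = m) :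
    ∃ R : Matrix (Fin n) (Fin m) ℂ, (∀ j, (fun i => R i j) ∈ K) ∧
      (∀ f : Fin m → Fin n, ‖(R.submatrix f id).det‖ ≤ 1) ∧
      ∃ J : Fin m ↪o Fin n, ‖(R.submatrix J id).det‖ = 1 := by
  classical
  let b := Module.finBasisOfFinrankEq ℂ K hm
  let Q : Matrix (Fin n) (Fin m) ℂ := Matrix.of fun i j => (b j : Fin n → ℂ) i
  have hQ : ∀ v : Fin m → ℂ, Q *ᵥ v = 0 → v = 0 := by
    intro v hv
    have h1 : ∑ j, v j • b j = 0 := by
      apply Subtype.ext
      funext i
      have h2 := congrFun hv i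
      simp only [Matrix.mulVec, dotProduct, Pi.zero_apply] at h2
      rw [Submodule.coe_sum, Finset.sum_apply]
      simp only [Submodule.coe_smul, Pi.smul_apply, smul_eq_mul, Submodule.coe_zero,
        Pi.zero_apply]
      rw [← h2]
      refine Finset.sum_congr rfl fun j _ => ?_
      rw [mul_comm]
      rfl
    have h2 := Fintype.linearIndependent_iff.1 b.linearIndependent v h1
    funext j
    exact h2 j
  have hgram : (Qᴴ * Q).det ≠ 0 := by
    intro h0
    obtain ⟨v, hv, hv0⟩ := Matrix.exists_mulVec_eq_zero_iff.2 h0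
    exact hv (hQ v (mulVec_eq_zero_of_gram Q v hv0))
  have hJ0 : ∃ J : Fin m ↪o Fin n, (Q.submatrix J id).det ≠ 0 := by
    by_contra hno
    push Not at hno
    apply hgram
    rw [det_gram]
    refine Finset.sum_eq_zero fun J _ => ?_
    rw [hno J]
    simp
  obtain ⟨J0, hJ0⟩ := hJ0
  obtain ⟨f, -, hf⟩ := Finset.exists_max_image (Finset.univ : Finset (Fin m → Fin n))
    (fun f => ‖(Q.submatrix f id).det‖) ⟨J0, Finset.mem_univ _⟩
  have hfne : (Q.submatrix f id).det ≠ 0 := by
    intro h0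
    have h1 := hf J0 (Finset.mem_univ _)
    simp only [h0, norm_zero] at h1
    exact hJ0 (norm_le_zero_iff.1 h1)
  have hinj : Function.Injective f := by
    intro i j hij
    by_contra hne
    exact hfne (Matrix.det_zero_of_row_eq hne (by funext k; simp [Matrix.submatrix_apply, hij]))
  obtain ⟨J, σ, hJσ⟩ := CBaux.exists_factor f hinj
  have hdet : (Q.submatrix f id).det =
      ((Equiv.Perm.sign σ : ℤ) : ℂ) * (Q.submatrix J id).det := by
    rw [hJσ]
    have := Matrix.det_permute σ (Q.submatrix J id)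
    rw [← this]
    rfl
  have hnorm : ‖(Q.submatrix f id).det‖ = ‖(Q.submatrix J id).det‖ := by
    rw [hdet, norm_mul]
    have : ‖((Equiv.Perm.sign σ : ℤ) : ℂ)‖ = 1 := by
      rcases Int.units_eq_one_or (Equiv.Perm.sign σ) with h | h <;> rw [h] <;> simp
    rw [this, one_mul]
  have hJne : (Q.submatrix J id).det ≠ 0 := by
    intro h0
    rw [h0, norm_zero] at hnorm
    exact hfne (norm_eq_zero.1 hnorm)
  have hJu : IsUnit (Q.submatrix J id).det := isUnit_iff_ne_zero.2 hJne
  have hsub : ∀ g : Fin m → Fin n, ((Q * (Q.submatrix J id)⁻¹).submatrix g id) =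
      (Q.submatrix g id) * (Q.submatrix J id)⁻¹ := by
    intro g
    ext i j
    simp [Matrix.mul_apply]
  have hdetg : ∀ g : Fin m → Fin n, ‖((Q * (Q.submatrix J id)⁻¹).submatrix g id).det‖ =
      ‖(Q.submatrix g id).det‖ / ‖(Q.submatrix J id).det‖ := by
    intro g
    rw [hsub, Matrix.det_mul, norm_mul, Matrix.det_nonsing_inv, Ring.inverse_eq_inv', norm_inv,
      div_eq_mul_inv]
  have hJpos : 0 < ‖(Q.submatrix J id).det‖ := norm_pos_iff.2 hJne
  refine ⟨Q * (Q.submatrix J id)⁻¹, ?_, ?_, J, ?_⟩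
  · intro j
    have h1 : (fun i => (Q * (Q.submatrix J id)⁻¹) i j) =
        ((∑ k, ((Q.submatrix J id)⁻¹ k j) • b k : K) : Fin n → ℂ) := by
      funext i
      rw [Submodule.coe_sum, Finset.sum_apply, Matrix.mul_apply]
      refine Finset.sum_congr rfl fun k _ => ?_
      simp only [Submodule.coe_smul, Pi.smul_apply, smul_eq_mul]
      rw [mul_comm]
      rfl
    rw [h1]
    exact Submodule.coe_mem _
  · intro g
    rw [hdetg, div_le_one hJpos, ← hnorm]
    exact hf g (Finset.mem_univ _)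
  · rw [hdetg, div_self hJpos.ne']

end Vale.P344
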