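import Vale.Agent.P344.Reach

namespace Vale.P344

open Finset

/-! Row CT: Cooley-Tukey.  `j = j₁ + q j₂`, `k = k₂ + m k₁`. -/

theorem zeta_pow_eq (n k : ℕ) : zeta n ^ k = Complex.exp (2 * Real.pi * Complex.I / n * k) := by
  unfold zeta
  rw [← Complex.exp_nat_mul]
  congr 1
  ring

theorem zeta_pow_self {n : ℕ} (hn : 0 < n) : zeta n ^ n = 1 := by
  have hn' : (n : ℂ) ≠ 0 := by exact_mod_cast hn.ne'
  rw [zeta_pow_eq, div_mul_cancel₀ _ hn', Complex.exp_two_pi_mul_I]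

theorem zeta_mul_pow_left {q m : ℕ} (hq : 0 < q) : zeta (q * m) ^ q = zeta m := by
  have hq' : (q : ℂ) ≠ 0 := by exact_mod_cast hq.ne'
  rw [zeta_pow_eq, zeta]
  congr 1
  push_cast
  rcases Nat.eq_zero_or_pos m with h | h
  · subst h
    simp
  · have hm' : (m : ℂ) ≠ 0 := by exact_mod_cast h.ne'
    field_simp

theorem zeta_mul_pow_right {q m : ℕ} (hm : 0 < m) : zeta (q * m) ^ m = zeta q := by
  rw [mul_comm]
  exact zeta_mul_pow_left hm

theorem zeta_two : zeta 2 = -1 := by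
  unfold zeta
  rw [← Complex.exp_pi_mul_I]
  congr 1
  push_cast
  ring

theorem dc_two : DC 2 2 := by
  intro V _ _ x
  have h0 : x 0 ∈ ({0} ∪ x '' Set.Iio 2 : Set V) := Or.inr ⟨0, by simp, rfl⟩
  have h1 : x 1 ∈ ({0} ∪ x '' Set.Iio 2 : Set V) := Or.inr ⟨1, by simp, rfl⟩
  right
  refine ⟨x 0 + x 1, ⟨x 0, h0, x 1, h1, Or.inl rfl⟩, ?_⟩
  right
  refine ⟨x 0 - x 1, ⟨x 0, Or.inr h0, x 1, Or.inr h1, Or.inr (Or.inl rfl)⟩, ?_⟩
  show Set.range (dft 2 x) ⊆ _
  rintro _ ⟨k, rfl⟩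
  have hd : dft 2 x k = x 0 + ((-1 : ℂ) ^ k) • x 1 := by
    unfold dft
    rw [Finset.sum_range_succ, Finset.sum_range_one, zeta_two]
    simp
  rw [hd]
  rcases neg_one_pow_eq_or ℂ k with h | h
  · right
    left
    rw [h, one_smul]
  · left
    rw [h, neg_smul, one_smul, sub_eq_add_neg]

theorem sum_range_mul' {V : Type*} [AddCommGroup V] (q m : ℕ) (f : ℕ → V) :
    ∑ j ∈ range (q * m), f j = ∑ j₁ ∈ range q, ∑ j₂ ∈ range m, f (j₁ + q * j₂) := by
  rcases Nat.eq_zero_or_pos q with h | hq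
  · subst h
    simp
  rw [← Finset.sum_product']
  refine (Finset.sum_nbij' (fun p : ℕ × ℕ => p.1 + q * p.2) (fun j => (j % q, j / q)) ?_ ?_ ?_ ?_
    ?_).symm
  · rintro ⟨a, b⟩ h
    rw [Finset.mem_product, Finset.mem_range, Finset.mem_range] at h
    rw [Finset.mem_range]
    show a + q * b < q * m
    have h1 : q * (b + 1) ≤ q * m := Nat.mul_le_mul_left _ h.2
    have h2 : a < q := h.1
    nlinarith
  · intro j h
    rw [Finset.mem_range] at h
    rw [Finset.mem_product, Finset.mem_range, Finset.mem_range]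
    exact ⟨Nat.mod_lt _ hq, Nat.div_lt_of_lt_mul h⟩
  · rintro ⟨a, b⟩ h
    rw [Finset.mem_product, Finset.mem_range, Finset.mem_range] at h
    have h2 : a < q := h.1
    show ((a + q * b) % q, (a + q * b) / q) = (a, b)
    rw [Nat.add_mul_mod_self_left, Nat.mod_eq_of_lt h2, Nat.add_mul_div_left _ _ hq,
      Nat.div_eq_of_lt h2, zero_add]
  · intro j _
    exact Nat.mod_add_div j q
  · intro p _
    rfl

theorem dft_mul {V : Type*} [AddCommGroup V] [Module ℂ V] {q m : ℕ} (hq : 0 < q) (hm : 0 < m)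
    (x : ℕ → V) (k : ℕ) :
    dft (q * m) x k = dft q (fun j₁ => zeta (q * m) ^ (j₁ * (k % m)) •
      dft m (fun j₂ => x (j₁ + q * j₂)) (k % m)) (k / m) := by
  unfold dft
  rw [sum_range_mul']
  refine Finset.sum_congr rfl fun j₁ _ => ?_
  show _ = zeta q ^ (j₁ * (k / m)) • (zeta (q * m) ^ (j₁ * (k % m)) •
    ∑ j ∈ range m, zeta m ^ (j * (k % m)) • x (j₁ + q * j))
  rw [Finset.smul_sum, Finset.smul_sum]
  refine Finset.sum_congr rfl fun j₂ _ => ?_
  rw [smul_smul, smul_smul]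
  congr 1
  have hk : k = k % m + m * (k / m) := (Nat.mod_add_div k m).symm
  generalize k % m = k₂ at hk ⊢
  generalize k / m = k₁ at hk ⊢
  have hz1 : zeta q ^ (j₁ * k₁) = zeta (q * m) ^ (m * (j₁ * k₁)) := by
    rw [pow_mul (zeta (q * m)) m, zeta_mul_pow_right hm]
  have hz2 : zeta m ^ (j₂ * k₂) = zeta (q * m) ^ (q * (j₂ * k₂)) := by
    rw [pow_mul (zeta (q * m)) q, zeta_mul_pow_left hq]
  rw [hk, hz1, hz2, ← pow_add, ← pow_add]
  have e : (j₁ + q * j₂) * (k₂ + m * k₁) =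
      m * (j₁ * k₁) + (j₁ * k₂ + q * (j₂ * k₂)) + (q * m) * (j₂ * k₁) := by ring
  rw [e, pow_add _ _ ((q * m) * (j₂ * k₁)), pow_mul _ (q * m),
    zeta_pow_self (Nat.mul_pos hq hm), one_pow, mul_one]
  congr 1
  ring

theorem dc_mul {q m a b : ℕ} (hq : 0 < q) (hm : 0 < m) (ha : DC q a) (hb : DC m b) :
    DC (q * m) (q * b + m * a + q * m) := by
  intro V _ _ x
  set S : Set V := {0} ∪ x '' Set.Iio (q * m) with hS
  -- stage 1
  let Y : ℕ → ℕ → V := fun j₁ => dft m (fun j₂ => x (j₁ + q * j₂))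
  have h1 : ∀ i < q, Reach b S (Set.range (Y i)) := by
    intro i hi
    refine (hb V (fun j₂ => x (i + q * j₂))).mono le_rfl ?_ le_rfl
    rintro v (hv | ⟨j, hj, rfl⟩)
    · exact Or.inl hv
    · refine Or.inr ⟨i + q * j, ?_, rfl⟩
      have h1 : q * (j + 1) ≤ q * m := Nat.mul_le_mul_left _ hj
      show i + q * j < q * m
      nlinarith
  have H1 := Reach.biUnion h1
  set U1 : Set V := ⋃ i ∈ Set.Iio q, Set.range (Y i) with hU1
  -- stage 2
  have hY : ∀ i < q, ∀ k, Y i k ∈ U1 := by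
    intro i hi k
    rw [hU1]
    exact Set.mem_biUnion (show i ∈ Set.Iio q from hi) ⟨k, rfl⟩
  have H2 : Reach (q * m) (S ∪ U1) ((fun t => zeta (q * m) ^ ((t % q) * (t / q)) • Y (t % q) (t / q))
      '' Set.Iio (q * m)) :=
    Reach.smuls (q * m) (fun t => Y (t % q) (t / q)) (fun t => zeta (q * m) ^ ((t % q) * (t / q)))
      fun t _ => Or.inr (hY _ (Nat.mod_lt _ hq) _)
  set U2 : Set V := (fun t => zeta (q * m) ^ ((t % q) * (t / q)) • Y (t % q) (t / q))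
      '' Set.Iio (q * m) with hU2
  have hZ : ∀ i < q, ∀ k < m, zeta (q * m) ^ (i * k) • Y i k ∈ U2 := by
    intro i hi k hk
    refine ⟨i + q * k, ?_, ?_⟩
    · have h1 : q * (k + 1) ≤ q * m := Nat.mul_le_mul_left _ hk
      show i + q * k < q * m
      nlinarith
    · show zeta (q * m) ^ (((i + q * k) % q) * ((i + q * k) / q)) •
        Y ((i + q * k) % q) ((i + q * k) / q) = _
      rw [Nat.add_mul_mod_self_left, Nat.mod_eq_of_lt hi, Nat.add_mul_div_left _ _ hq,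
        Nat.div_eq_of_lt hi, zero_add]
  have H12 := Reach.trans H1 H2
  -- stage 3
  have h3 : ∀ k₂ < m, Reach a (S ∪ (S ∪ U1 ∪ U2))
      (Set.range (dft q (fun j₁ => zeta (q * m) ^ (j₁ * k₂) • Y j₁ k₂))) := by
    intro k₂ hk₂
    refine (ha V (fun j₁ => zeta (q * m) ^ (j₁ * k₂) • Y j₁ k₂)).mono le_rfl ?_ le_rfl
    rintro v (hv | ⟨j, hj, rfl⟩)
    · exact Or.inl (Or.inl hv)
    · exact Or.inr (Or.inr (hZ j hj k₂ hk₂))
  have H3 := Reach.biUnion h3
  have H := Reach.trans H12 H3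
  refine H.mono (by ring_nf; exact le_rfl) le_rfl ?_
  rintro _ ⟨k, rfl⟩
  right
  rw [dft_mul hq hm]
  exact Set.mem_biUnion (show k % m ∈ Set.Iio m from Nat.mod_lt _ hm) ⟨k / m, rfl⟩

end Vale.P344
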