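import Vale.Agent.P344.Reach
import Vale.Agent.P344.CT

namespace Vale.P344

open Finset

/-! Row BL: Bluestein's algorithm. -/

theorem sum_zeta {N : ℕ} (hN : 0 < N) (r : ℕ) :
    ∑ l ∈ range N, zeta N ^ (l * r) = if N ∣ r then (N : ℂ) else 0 := by
  have hp : IsPrimitiveRoot (zeta N) N := Complex.isPrimitiveRoot_exp N hN.ne'
  have e : ∀ l ∈ range N, zeta N ^ (l * r) = (zeta N ^ r) ^ l := by
    intro l _
    rw [← pow_mul, mul_comm]
  rw [Finset.sum_congr rfl e]
  by_cases h : N ∣ r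
  · rw [if_pos h, (hp.pow_eq_one_iff_dvd r).2 h]
    simp
  · rw [if_neg h]
    have h1 : zeta N ^ r ≠ 1 := fun h' => h ((hp.pow_eq_one_iff_dvd r).1 h')
    rw [geom_sum_eq h1, ← pow_mul, mul_comm r N, pow_mul, zeta_pow_self hN, one_pow, sub_self,
      zero_div]

theorem dft_conv {V : Type*} [AddCommGroup V] [Module ℂ V] {N : ℕ} (hN : 0 < N) (a : ℕ → V)
    (b : ℕ → ℂ) (r : ℕ) :
    dft N (fun l => ((∑ t ∈ range N, b t * zeta N ^ (t * l)) / N) • dft N a l) r =
      ∑ j ∈ range N, (∑ t ∈ range N, if N ∣ t + j + r then b t else 0) • a j := by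
  have hN' : (N : ℂ) ≠ 0 := by exact_mod_cast hN.ne'
  unfold dft
  simp_rw [Finset.smul_sum, smul_smul]
  rw [Finset.sum_comm]
  refine Finset.sum_congr rfl fun j _ => ?_
  rw [← Finset.sum_smul]
  congr 1
  have e : ∀ l ∈ range N, zeta N ^ (l * r) * ((∑ t ∈ range N, b t * zeta N ^ (t * l)) / N *
      zeta N ^ (j * l)) = ∑ t ∈ range N, b t / N * zeta N ^ (l * (t + j + r)) := by
    intro l _
    rw [← mul_assoc, Finset.sum_div, Finset.mul_sum, Finset.sum_mul]
    refine Finset.sum_congr rfl fun t _ => ?_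
    have : l * (t + j + r) = l * r + t * l + j * l := by ring
    rw [this, pow_add, pow_add]
    ring
  rw [Finset.sum_congr rfl e]
  rw [Finset.sum_comm]
  refine Finset.sum_congr rfl fun t _ => ?_
  rw [← Finset.mul_sum, sum_zeta hN]
  split_ifs
  · field_simp
  · simp

theorem dvd_iff_aux {n N k j t : ℕ} (hN : 2 * n ≤ N + 1) (hk : k < n) (hj : j < n) (ht : t < N) :
    N ∣ t + j + (N - k) ↔ t = if j ≤ k then k - j else N - (j - k) := by
  have hkN : k < N := by omega
  constructor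
  · rintro ⟨c, hc⟩
    have h1 : t + j + (N - k) < N * 3 := by omega
    have h0 : 0 < t + j + (N - k) := by omega
    have hc3 : c < 3 := by
      by_contra h
      have : N * 3 ≤ N * c := Nat.mul_le_mul_left _ (by omega)
      omega
    have hc0 : c ≠ 0 := by
      rintro rfl
      omega
    have hc12 : c = 1 ∨ c = 2 := by omega
    rcases hc12 with rfl | rfl
    · split_ifs <;> omega
    · split_ifs <;> omega
  · intro h
    split_ifs at h with h1
    · exact ⟨1, by omega⟩
    · exact ⟨2, by omega⟩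

theorem dft_bluestein {V : Type*} [AddCommGroup V] [Module ℂ V] {n N : ℕ}
    (hN : 2 * n ≤ N + 1) (x : ℕ → V) {k : ℕ} (hk : k < n) :
    dft n x k = zeta (2 * n) ^ (k ^ 2) •
      dft N (fun l => ((∑ t ∈ range N, (if t < n then (zeta (2 * n))⁻¹ ^ (t ^ 2) else
        (zeta (2 * n))⁻¹ ^ ((N - t) ^ 2)) * zeta N ^ (t * l)) / N) •
        dft N (fun j => if j < n then zeta (2 * n) ^ (j ^ 2) • x j else 0) l) (N - k) := by
  have hN0 : 0 < N := by omega
  have hω : zeta (2 * n) ≠ 0 := Complex.exp_ne_zero _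
  rw [dft_conv hN0 _ (fun t => if t < n then (zeta (2 * n))⁻¹ ^ (t ^ 2) else
        (zeta (2 * n))⁻¹ ^ ((N - t) ^ 2))]
  rw [Finset.smul_sum]
  have hsub : range n ⊆ range N := Finset.range_subset_range.2 (by omega)
  unfold dft
  rw [← Finset.sum_subset hsub]
  · refine Finset.sum_congr rfl fun j hj => ?_
    rw [Finset.mem_range] at hj
    rw [if_pos hj, smul_smul, smul_smul]
    congr 1
    have e1 : (∑ t ∈ range N, if N ∣ t + j + (N - k) then
        (if t < n then (zeta (2 * n))⁻¹ ^ (t ^ 2) else (zeta (2 * n))⁻¹ ^ ((N - t) ^ 2)) else 0) =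
        if j ≤ k then (zeta (2 * n))⁻¹ ^ ((k - j) ^ 2) else (zeta (2 * n))⁻¹ ^ ((j - k) ^ 2) := by
      have h0 : ∀ t ∈ range N, (if N ∣ t + j + (N - k) then
          (if t < n then (zeta (2 * n))⁻¹ ^ (t ^ 2) else (zeta (2 * n))⁻¹ ^ ((N - t) ^ 2)) else 0) =
          if t = (if j ≤ k then k - j else N - (j - k)) then
          (if t < n then (zeta (2 * n))⁻¹ ^ (t ^ 2) else (zeta (2 * n))⁻¹ ^ ((N - t) ^ 2)) else 0 := by
        intro t ht
        rw [Finset.mem_range] at ht
        simp only [dvd_iff_aux hN hk hj ht]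
      rw [Finset.sum_congr rfl h0, Finset.sum_ite_eq']
      by_cases h1 : j ≤ k
      · rw [if_pos h1, if_pos h1, if_pos (Finset.mem_range.2 (by omega : k - j < N)),
          if_pos (by omega : k - j < n)]
      · rw [if_neg h1, if_neg h1, if_pos (Finset.mem_range.2 (by omega : N - (j - k) < N)),
          if_neg (by omega : ¬ N - (j - k) < n)]
        have : N - (N - (j - k)) = j - k := by omega
        rw [this]
    rw [e1]
    have e2 : zeta n ^ (j * k) = zeta (2 * n) ^ (2 * (j * k)) := by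
      rw [pow_mul (zeta (2 * n)) 2, zeta_mul_pow_left (by norm_num : 0 < 2)]
    rw [e2]
    split_ifs with h
    · obtain ⟨d, rfl⟩ := Nat.exists_eq_add_of_le h
      rw [Nat.add_sub_cancel_left, inv_pow]
      field_simp
      rw [← pow_add, ← pow_add]
      congr 1
      ring
    · obtain ⟨d, rfl⟩ := Nat.exists_eq_add_of_le (not_le.1 h).le
      rw [Nat.add_sub_cancel_left, inv_pow]
      field_simp
      rw [← pow_add, ← pow_add]
      congr 1
      ring
  · intro j _ hj
    rw [Finset.mem_range] at hj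
    rw [if_neg hj, smul_zero, smul_zero]

theorem dft_mod {V : Type*} [AddCommGroup V] [Module ℂ V] {n : ℕ} (hn : 0 < n) (x : ℕ → V)
    (k : ℕ) : dft n x (k % n) = dft n x k := by
  unfold dft
  refine Finset.sum_congr rfl fun j _ => ?_
  congr 1
  conv_rhs => rw [← Nat.mod_add_div k n]
  have : j * (k % n + n * (k / n)) = j * (k % n) + n * (j * (k / n)) := by ring
  rw [this, pow_add, pow_mul _ n, zeta_pow_self hn, one_pow, mul_one]

theorem dc_bluestein {n N s : ℕ} (hn : 0 < n) (hN : 2 * n ≤ N + 1) (h : DC N s) :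
    DC n (2 * s + N + 2 * n) := by
  intro V _ _ x
  set S : Set V := {0} ∪ x '' Set.Iio n with hS
  let a : ℕ → V := fun j => if j < n then zeta (2 * n) ^ (j ^ 2) • x j else 0
  let b : ℕ → ℂ := fun l => (∑ t ∈ range N, (if t < n then (zeta (2 * n))⁻¹ ^ (t ^ 2) else
        (zeta (2 * n))⁻¹ ^ ((N - t) ^ 2)) * zeta N ^ (t * l)) / N
  let c : ℕ → V := fun l => b l • dft N a l
  have H1 : Reach n S ((fun j => zeta (2 * n) ^ (j ^ 2) • x j) '' Set.Iio n) :=
    Reach.smuls n x (fun j => zeta (2 * n) ^ (j ^ 2)) fun i hi => Or.inr ⟨i, hi, rfl⟩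
  set U1 : Set V := (fun j => zeta (2 * n) ^ (j ^ 2) • x j) '' Set.Iio n with hU1
  have H2 : Reach s (S ∪ U1) (Set.range (dft N a)) := by
    refine (h V a).mono le_rfl ?_ le_rfl
    rintro v (hv | ⟨j, _, rfl⟩)
    · exact Or.inl (Or.inl hv)
    · show (if j < n then zeta (2 * n) ^ (j ^ 2) • x j else 0) ∈ S ∪ U1
      split_ifs with hj
      · exact Or.inr ⟨j, hj, rfl⟩
      · exact Or.inl (Or.inl rfl)
  have H12 := Reach.trans H1 H2
  set U2 : Set V := Set.range (dft N a) with hU2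
  have H3 : Reach N (S ∪ (S ∪ U1 ∪ U2)) ((fun l => b l • dft N a l) '' Set.Iio N) :=
    Reach.smuls N (dft N a) b fun i _ => Or.inr (Or.inr ⟨i, rfl⟩)
  have H123 := Reach.trans H12 H3
  set U3 : Set V := (fun l => b l • dft N a l) '' Set.Iio N with hU3
  set W : Set V := S ∪ (S ∪ (S ∪ U1 ∪ U2) ∪ U3) with hW
  have H4 : Reach s W (Set.range (dft N c)) := by
    refine (h V c).mono le_rfl ?_ le_rfl
    rintro v (hv | ⟨j, hj, rfl⟩)
    · exact Or.inl (Or.inl hv)
    · exact Or.inr (Or.inr ⟨j, hj, rfl⟩)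
  have H1234 := Reach.trans H123 H4
  set U4 : Set V := Set.range (dft N c) with hU4
  have H5 : Reach n (S ∪ (S ∪ (S ∪ (S ∪ U1 ∪ U2) ∪ U3) ∪ U4))
      ((fun k => zeta (2 * n) ^ (k ^ 2) • dft N c (N - k)) '' Set.Iio n) :=
    Reach.smuls n (fun k => dft N c (N - k)) (fun k => zeta (2 * n) ^ (k ^ 2))
      fun i _ => Or.inr (Or.inr ⟨N - i, rfl⟩)
  have H := Reach.trans H1234 H5
  refine H.mono (by omega) le_rfl ?_
  rintro _ ⟨k, rfl⟩
  right
  refine ⟨k % n, Nat.mod_lt _ hn, ?_⟩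
  show zeta (2 * n) ^ ((k % n) ^ 2) • dft N c (N - k % n) = dft n x k
  rw [← dft_mod hn x k]
  exact (dft_bluestein hN x (Nat.mod_lt _ hn)).symm

end Vale.P344
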