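import Mathlib

namespace Vale.P344

open Finset Matrix

/-! Row CB: Cauchy-Binet for the Gram matrix. -/

namespace CBaux

theorem det_expand {m n : ℕ} (B : Matrix (Fin m) (Fin n) ℂ) (A : Matrix (Fin n) (Fin m) ℂ) :
    (B * A).det = ∑ f : Fin m → Fin n, (∏ i, B i (f i)) * (A.submatrix f id).det := by
  have h1 : (B * A) = fun i => ∑ k : Fin n, B i k • A k := by
    funext i
    funext j
    simp [Matrix.mul_apply, Finset.sum_apply]
  have h2 := (Matrix.detRowAlternating (n := Fin m) (R := ℂ)).toMultilinearMap.map_sum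
    (fun i (k : Fin n) => B i k • A k)
  have h3 : (B * A).det = (Matrix.detRowAlternating (n := Fin m) (R := ℂ)).toMultilinearMap
      (fun i => ∑ k : Fin n, B i k • A k) := by
    rw [h1]
    rfl
  rw [h3, h2]
  refine Finset.sum_congr rfl fun f _ => ?_
  rw [MultilinearMap.map_smul_univ]
  rfl

theorem exists_factor {m n : ℕ} (f : Fin m → Fin n) (hf : Function.Injective f) :
    ∃ (J : Fin m ↪o Fin n) (σ : Equiv.Perm (Fin m)), f = J ∘ σ := by
  have hc : (Finset.univ.image f).card = m := by
    rw [Finset.card_image_of_injective _ hf, Finset.card_univ, Fintype.card_fin]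
  set J := (Finset.univ.image f).orderEmbOfFin hc with hJ
  have hex : ∀ i, ∃ j, J j = f i := by
    intro i
    have h1 : f i ∈ Set.range J := by
      rw [hJ, Finset.range_orderEmbOfFin]
      simp
    exact h1
  choose g hg using hex
  have hgi : Function.Injective g := by
    intro a b hab
    apply hf
    rw [← hg a, ← hg b, hab]
  refine ⟨J, Equiv.ofBijective g (Finite.injective_iff_bijective.1 hgi), ?_⟩
  funext i
  exact (hg i).symm

theorem det_eq {m n : ℕ} (B : Matrix (Fin m) (Fin n) ℂ) (A : Matrix (Fin n) (Fin m) ℂ) :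
    (B * A).det = ∑ J : Fin m ↪o Fin n, (B.submatrix id J).det * (A.submatrix J id).det := by
  classical
  rw [det_expand]
  have h1 : ∑ p : (Fin m ↪o Fin n) × Equiv.Perm (Fin m),
      (∏ i, B i (p.1 (p.2 i))) * (A.submatrix (p.1 ∘ p.2) id).det =
      ∑ f : Fin m → Fin n, (∏ i, B i (f i)) * (A.submatrix f id).det := by
    refine Finset.sum_of_injOn (fun p : (Fin m ↪o Fin n) × Equiv.Perm (Fin m) => (p.1 ∘ p.2))
      ?_ (fun _ _ => Finset.mem_coe.2 (Finset.mem_univ _)) ?_ (fun _ _ => rfl)
    · rintro ⟨J, σ⟩ _ ⟨J', σ'⟩ _ h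
      simp only at h
      have hr : Set.range J = Set.range J' := by
        have e1 : Set.range (J ∘ σ) = Set.range J := σ.surjective.range_comp J
        have e2 : Set.range (J' ∘ σ') = Set.range J' := σ'.surjective.range_comp J'
        rw [← e1, ← e2, h]
      have hJ : (J : Fin m → Fin n) = J' :=
        (StrictMono.range_inj J.strictMono J'.strictMono).1 hr
      have hJ' : J = J' := DFunLike.coe_injective hJ
      subst hJ'
      have hσ : σ = σ' := by
        ext i
        have := congrFun h i
        exact congrArg Fin.val (J.injective this)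
      rw [hσ]
    · intro f _ hf
      have hni : ¬ Function.Injective f := by
        intro hinj
        obtain ⟨J, σ, h⟩ := exists_factor f hinj
        exact hf ⟨(J, σ), Finset.mem_coe.2 (Finset.mem_univ _), h.symm⟩
      have h0 : (A.submatrix f id).det = 0 := by
        rw [Function.Injective] at hni
        push Not at hni
        obtain ⟨i, j, hij, hne⟩ := hni
        exact Matrix.det_zero_of_row_eq hne (by funext k; simp [Matrix.submatrix_apply, hij])
      rw [h0, mul_zero]
  rw [← h1, Fintype.sum_prod_type]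
  refine Finset.sum_congr rfl fun J _ => ?_
  have h2 : ∀ σ : Equiv.Perm (Fin m), (A.submatrix (J ∘ σ) id).det =
      ((Equiv.Perm.sign σ : ℤ) : ℂ) * (A.submatrix J id).det := by
    intro σ
    have := Matrix.det_permute σ (A.submatrix J id)
    rw [← this]
    rfl
  have h3 : (B.submatrix id J).det = ∑ σ : Equiv.Perm (Fin m),
      ((Equiv.Perm.sign σ : ℤ) : ℂ) * ∏ i, B i (J (σ i)) := by
    rw [← Matrix.det_transpose, Matrix.det_apply']
    rfl
  rw [h3, Finset.sum_mul]
  refine Finset.sum_congr rfl fun σ _ => ?_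
  rw [h2]
  ring

end CBaux

theorem det_gram {m n : ℕ} (A : Matrix (Fin n) (Fin m) ℂ) :
    (Aᴴ * A).det = ∑ J : Fin m ↪o Fin n, ((‖(A.submatrix J id).det‖ ^ 2 : ℝ) : ℂ) := by
  rw [CBaux.det_eq]
  refine Finset.sum_congr rfl fun J _ => ?_
  have h1 : Aᴴ.submatrix id J = (A.submatrix J id)ᴴ := rfl
  rw [h1, Matrix.det_conjTranspose]
  rw [Complex.star_def, Complex.conj_mul']
  push_cast
  rfl

end Vale.P344
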