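import Mathlib

/-!
Linear circuits for the discrete Fourier transform (problem P344).
-/

namespace Vale.P344

open Finset

/-- A gate of a linear circuit. The natural numbers are positions in the list of values computed
so far; a position outside the list stands for the constant `0`. -/
inductive Gate where
  | add (i j : ℕ)
  | sub (i j : ℕ)
  | smul (c : ℂ) (i : ℕ)

/-- The value computed by a gate from the list `v` of the values computed before. -/
def Gate.eval {V : Type*} [AddCommGroup V] [Module ℂ V] (v : List V) : Gate → V
  | .add i j => v.getD i 0 + v.getD j 0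
  | .sub i j => v.getD i 0 - v.getD j 0
  | .smul c i => c • v.getD i 0

/-- Run the gates one after the other; every gate appends its value to the list. -/
def run {V : Type*} [AddCommGroup V] [Module ℂ V] : List Gate → List V → List V
  | [], v => v
  | g :: C, v => run C (v ++ [g.eval v])

/-- The `n`-th root of unity `exp (2 π i / n)`. -/
noncomputable def zeta (n : ℕ) : ℂ := Complex.exp (2 * Real.pi * Complex.I / n)

/-- The circuit `C` (with `n` inputs and the constant `0`) computes the discrete Fourier
transform `F_n`: for suitable output positions `out`, for every `x`, the value at position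
`out k` is `∑ j, ζ_n ^ (j k) x_j`. -/
def Computes (n : ℕ) (C : List Gate) : Prop :=
  ∃ out : Fin n → ℕ, ∀ x : Fin n → ℂ, ∀ k : Fin n,
    (run C (0 :: List.ofFn x)).getD (out k) 0 = ∑ j : Fin n, zeta n ^ ((j : ℕ) * (k : ℕ)) * x j

/-- `L n`: the least number of gates of a linear circuit computing `F_n`. -/
noncomputable def L (n : ℕ) : ℕ :=
  sInf {s | ∃ C : List Gate, Computes n C ∧ C.length = s}

/-- Number of additions and subtractions of a circuit. -/
def adds : List Gate → ℕ
  | [] => 0
  | .add _ _ :: C => adds C + 1
  | .sub _ _ :: C => adds C + 1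
  | .smul _ _ :: C => adds C

open Classical in
/-- Number of multiplications by irrational scalars (scalars outside `ℚ`) of a circuit. -/
noncomputable def irr : List Gate → ℕ
  | [] => 0
  | .add _ _ :: C => irr C
  | .sub _ _ :: C => irr C
  | .smul c _ :: C => irr C + if c ∈ Set.range (algebraMap ℚ ℂ) then 0 else 1

/-- The cost of a gate under the embedding `σ`: `1` for an addition or subtraction,
`log₂ (max 1 |σ c|)` for a multiplication by `c`. -/
noncomputable def Gate.cost (σ : ℂ →+* ℂ) : Gate → ℝ
  | .add _ _ => 1
  | .sub _ _ => 1
  | .smul c _ => Real.logb 2 (max 1 ‖σ c‖)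

/-- Total cost, under `σ`, of the gates of `C` whose positions are not in `H`. -/
noncomputable def costOutside (σ : ℂ →+* ℂ) (C : List Gate) (H : Finset ℕ) : ℝ :=
  ∑ i : Fin C.length, if (i : ℕ) ∈ H then 0 else (C.get i).cost σ

/-! ### Internal notions -/

/-- `w` is obtained from elements of `S` by one gate. -/
def Step {V : Type*} [AddCommGroup V] [Module ℂ V] (S : Set V) (w : V) : Prop :=
  ∃ u ∈ S, ∃ v ∈ S, w = u + v ∨ w = u - v ∨ ∃ c : ℂ, w = c • u

/-- All elements of `T` can be computed from `S` by at most `k` gates. -/
def Reach {V : Type*} [AddCommGroup V] [Module ℂ V] : ℕ → Set V → Set V → Prop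
  | 0, S, T => T ⊆ S
  | k + 1, S, T => T ⊆ S ∨ ∃ w, Step S w ∧ Reach k (insert w S) T

/-- The transform of a sequence with values in a module. -/
noncomputable def dft {V : Type*} [AddCommGroup V] [Module ℂ V] (n : ℕ) (x : ℕ → V) (k : ℕ) : V :=
  ∑ j ∈ range n, zeta n ^ (j * k) • x j

/-- `s` gates suffice for the transform of length `n`. -/
def DC (n s : ℕ) : Prop :=
  ∀ (V : Type) [AddCommGroup V] [Module ℂ V] (x : ℕ → V),
    Reach s ({0} ∪ x '' Set.Iio n) (Set.range (dft n x))

end Vale.P344
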