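import Vale.Agent.P344.Defs

namespace Vale.P344

open Finset

variable {V W : Type*} [AddCommGroup V] [Module ℂ V] [AddCommGroup W] [Module ℂ W]

theorem getD_map_zero {A B : Type*} [Zero A] [Zero B] (φ : A → B) (h0 : φ 0 = 0) (v : List A)
    (i : ℕ) : (v.map φ).getD i 0 = φ (v.getD i 0) := by
  rw [List.getD_eq_getElem?_getD, List.getD_eq_getElem?_getD, List.getElem?_map]
  cases v[i]? <;> simp [h0]

theorem Gate.eval_map (φ : V →ₗ[ℂ] W) (v : List V) (g : Gate) :
    g.eval (v.map φ) = φ (g.eval v) := by
  cases g <;> simp only [Gate.eval, getD_map_zero φ (map_zero φ), map_add, map_sub, map_smul]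

/-- Running a circuit commutes with linear maps. -/
theorem run_map (φ : V →ₗ[ℂ] W) (C : List Gate) (v : List V) :
    run C (v.map φ) = (run C v).map φ := by
  induction C generalizing v with
  | nil => rfl
  | cons g C ih =>
    simp only [run]
    rw [Gate.eval_map φ v g, ← ih]
    simp

theorem run_append (C D : List Gate) (v : List V) : run (C ++ D) v = run D (run C v) := by
  induction C generalizing v with
  | nil => rfl
  | cons g C ih => simp only [List.cons_append, run]; exact ih _

theorem length_run (C : List Gate) (v : List V) : (run C v).length = v.length + C.length := by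
  induction C generalizing v with
  | nil => simp [run]
  | cons g C ih => simp only [run]; rw [ih]; simp; omega

/-- The list of the constant `0` and the coordinate forms. -/
noncomputable def E (n : ℕ) : List (Fin n → ℂ) := 0 :: List.ofFn (fun j : Fin n => Pi.single j 1)

/-- Evaluation of a linear form (row vector) at `x`. -/
noncomputable def evalAt {n : ℕ} (x : Fin n → ℂ) : (Fin n → ℂ) →ₗ[ℂ] ℂ where
  toFun w := ∑ j, w j * x j
  map_add' a b := by simp [add_mul, Finset.sum_add_distrib]
  map_smul' c a := by simp [Finset.mul_sum, mul_assoc]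

theorem evalAt_apply {n : ℕ} (x w : Fin n → ℂ) : evalAt x w = ∑ j, w j * x j := rfl

theorem E_map_evalAt {n : ℕ} (x : Fin n → ℂ) : (E n).map (evalAt x) = 0 :: List.ofFn x := by
  simp only [E, List.map_cons, map_zero, List.map_ofFn]
  congr 2
  funext j
  simp [evalAt_apply, Pi.single_apply]

/-- A circuit computes `F_n` iff the rows of `F_n` are among the computed linear forms. -/
theorem computes_iff {n : ℕ} {C : List Gate} : Computes n C ↔
    ∃ out : Fin n → ℕ, ∀ k : Fin n, (run C (E n)).getD (out k) 0 =
      fun j : Fin n => zeta n ^ ((j : ℕ) * (k : ℕ)) := by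
  constructor
  · rintro ⟨out, h⟩
    refine ⟨out, fun k => ?_⟩
    funext j
    have := h (Pi.single j 1) k
    rw [← E_map_evalAt, run_map, getD_map_zero _ (map_zero _), evalAt_apply] at this
    simpa [Pi.single_apply] using this
  · rintro ⟨out, h⟩
    refine ⟨out, fun x k => ?_⟩
    rw [← E_map_evalAt, run_map, getD_map_zero _ (map_zero _), h k, evalAt_apply]

theorem zeta_isPrimitiveRoot {n : ℕ} (hn : 0 < n) : IsPrimitiveRoot (zeta n) n := by
  have := Complex.isPrimitiveRoot_exp n hn.ne'
  simpa [zeta] using this

end Vale.P344
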