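import Vale.Agent.P344.Defs

namespace Vale.P344

open Finset

/-! Row GR: growth of the maximal minors. -/

namespace GR

theorem run_getD {V : Type*} [AddCommGroup V] [Module ℂ V] (C : List Gate) (v : List V) {i : ℕ}
    (hi : i < v.length) : (run C v).getD i 0 = v.getD i 0 := by
  induction C generalizing v with
  | nil => rfl
  | cons g C ih =>
    rw [run, ih _ (by simp; omega)]
    simp [List.getD_eq_getElem?_getD, List.getElem?_append_left hi]

variable {m : ℕ}

/-- All determinants of rows from `S` are at most `B`. -/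
def Bd (S : Set (Fin m → ℂ)) (B : ℝ) : Prop :=
  ∀ r : Fin m → Fin m → ℂ, (∀ i, r i ∈ S) → ‖(Matrix.of r).det‖ ≤ B

theorem bd_insert {S : Set (Fin m → ℂ)} {B c : ℝ} (hB : 0 ≤ B) (hS : Bd S B) (hc : 1 ≤ c)
    (x : Fin m → ℂ)
    (hx : ∀ (r : Fin m → Fin m → ℂ) (i0 : Fin m), (∀ i, i ≠ i0 → r i ∈ S) → r i0 = x →
      ‖(Matrix.of r).det‖ ≤ B * c) : Bd (insert x S) (B * c) := by
  intro r hr
  by_cases h : ∃ i0, r i0 ∉ S
  · obtain ⟨i0, h0⟩ := h
    have h1 : r i0 = x := (hr i0).resolve_right h0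
    by_cases h2 : ∀ i, i ≠ i0 → r i ∈ S
    · exact hx r i0 h2 h1
    · push Not at h2
      obtain ⟨i1, h3, h4⟩ := h2
      have h5 : r i1 = x := (hr i1).resolve_right h4
      have h6 : (Matrix.of r).det = 0 :=
        Matrix.det_zero_of_row_eq h3 (h5.trans h1.symm)
      rw [h6, norm_zero]
      exact mul_nonneg hB (by linarith)
  · push Not at h
    refine (hS r h).trans ?_
    nlinarith

theorem of_update (r : Fin m → Fin m → ℂ) (i0 : Fin m) (u : Fin m → ℂ) :
    Matrix.of (Function.update r i0 u) = (Matrix.of r).updateRow i0 u := rfl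

theorem det_update_le {S : Set (Fin m → ℂ)} {B : ℝ} (hS : Bd S B) {r : Fin m → Fin m → ℂ}
    {i0 : Fin m} (hr : ∀ i, i ≠ i0 → r i ∈ S) {u : Fin m → ℂ} (hu : u ∈ S) :
    ‖((Matrix.of r).updateRow i0 u).det‖ ≤ B := by
  rw [← of_update]
  refine hS _ fun i => ?_
  by_cases h : i = i0
  · rw [h, Function.update_self]
    exact hu
  · rw [Function.update_of_ne h]
    exact hr i h

theorem of_eq {r : Fin m → Fin m → ℂ} {i0 : Fin m} {x : Fin m → ℂ} (h : r i0 = x) :
    Matrix.of r = (Matrix.of r).updateRow i0 x := by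
  rw [← of_update, ← h, Function.update_eq_self]

theorem bd_add {S : Set (Fin m → ℂ)} {B : ℝ} (hB : 0 ≤ B) (hS : Bd S B) {u v : Fin m → ℂ}
    (hu : u ∈ S) (hv : v ∈ S) : Bd (insert (u + v) S) (B * 2) := by
  refine bd_insert hB hS (by norm_num) _ fun r i0 hr h => ?_
  rw [of_eq h, Matrix.det_updateRow_add]
  refine (norm_add_le _ _).trans ?_
  have h1 := det_update_le hS hr hu
  have h2 := det_update_le hS hr hv
  linarith

theorem bd_smul {S : Set (Fin m → ℂ)} {B : ℝ} (hB : 0 ≤ B) (hS : Bd S B) {u : Fin m → ℂ}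
    (hu : u ∈ S) (c : ℂ) : Bd (insert (c • u) S) (B * max 1 ‖c‖) := by
  refine bd_insert hB hS (le_max_left _ _) _ fun r i0 hr h => ?_
  rw [of_eq h, Matrix.det_updateRow_smul, norm_mul]
  have h1 := det_update_le hS hr hu
  calc ‖c‖ * ‖((Matrix.of r).updateRow i0 u).det‖ ≤ max 1 ‖c‖ * B :=
        mul_le_mul (le_max_right _ _) h1 (norm_nonneg _) (by positivity)
    _ = B * max 1 ‖c‖ := mul_comm _ _

theorem bd_sub {S : Set (Fin m → ℂ)} {B : ℝ} (hB : 0 ≤ B) (hS : Bd S B) {u v : Fin m → ℂ}
    (hu : u ∈ S) (hv : v ∈ S) : Bd (insert (u - v) S) (B * 2) := by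
  refine bd_insert hB hS (by norm_num) _ fun r i0 hr h => ?_
  have h0 : u - v = u + (-1 : ℂ) • v := by
    rw [neg_one_smul, sub_eq_add_neg]
  rw [of_eq h, h0, Matrix.det_updateRow_add, Matrix.det_updateRow_smul]
  refine (norm_add_le _ _).trans ?_
  have h1 := det_update_le hS hr hu
  have h2 := det_update_le hS hr hv
  rw [norm_mul, norm_neg, norm_one, one_mul]
  linarith

theorem bd_zero {S : Set (Fin m → ℂ)} {B : ℝ} (hB : 0 ≤ B) (hS : Bd S B) :
    Bd (insert 0 S) (B * 1) := by
  refine bd_insert hB hS le_rfl _ fun r i0 _ h => ?_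
  have h6 : (Matrix.of r).det = 0 := by
    refine Matrix.det_eq_zero_of_row_eq_zero i0 fun j => ?_
    rw [Matrix.of_apply, h]
    rfl
  rw [h6, norm_zero]
  linarith

theorem range_append (w : List (Fin m → ℂ)) (x : Fin m → ℂ) (i : ℕ) :
    (w ++ [x]).getD i 0 ∈ insert x (Set.range fun i => w.getD i 0) := by
  by_cases hi : i < w.length
  · right
    refine ⟨i, ?_⟩
    simp [List.getD_eq_getElem?_getD, List.getElem?_append_left hi]
  · by_cases hi' : i = w.length
    · left
      subst hi'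
      simp [List.getD_eq_getElem?_getD]
    · right
      refine ⟨w.length, ?_⟩
      have h1 : w.getD w.length 0 = 0 := by
        simp [List.getD_eq_getElem?_getD]
      have h2 : (w ++ [x]).getD i 0 = 0 := by
        rw [List.getD_eq_getElem?_getD, List.getElem?_eq_none (by simp; omega)]
        rfl
      exact h1.trans h2.symm

theorem costOutside_cons (g : Gate) (C : List Gate) (H H' : Finset ℕ)
    (hH' : ∀ i, i ∈ H' ↔ i + 1 ∈ H) :
    costOutside (RingHom.id ℂ) (g :: C) H =
      (if 0 ∈ H then 0 else g.cost (RingHom.id ℂ)) + costOutside (RingHom.id ℂ) C H' := by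
  unfold costOutside
  have h : ∑ i : Fin (g :: C).length,
      (if (i : ℕ) ∈ H then 0 else ((g :: C).get i).cost (RingHom.id ℂ)) =
      ∑ i : Fin (C.length + 1),
      (if (i : ℕ) ∈ H then 0 else ((g :: C).get i).cost (RingHom.id ℂ)) := rfl
  rw [h, Fin.sum_univ_succ]
  congr 1
  refine Finset.sum_congr rfl fun i _ => ?_
  have h1 : ((i.succ : Fin (C.length + 1)) : ℕ) ∈ H ↔ (i : ℕ) ∈ H' := by
    rw [hH', Fin.val_succ]
  by_cases h2 : (i : ℕ) ∈ H'
  · rw [if_pos h2, if_pos (h1.mpr h2)]
  · rw [if_neg h2, if_neg (fun h3 => h2 (h1.mp h3))]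
    rfl

end GR

theorem grow {m : ℕ} (C : List Gate) (w : List (Fin m → ℂ)) (B : ℝ) (hB : 0 ≤ B)
    (hw : ∀ f : Fin m → ℕ, ‖(Matrix.of fun i => w.getD (f i) 0).det‖ ≤ B)
    (H : Finset ℕ)
    (hH : ∀ i ∈ H, i < C.length → (run C w).getD (w.length + i) 0 = 0) :
    ∀ f : Fin m → ℕ, ‖(Matrix.of fun i => (run C w).getD (f i) 0).det‖ ≤
      B * (2 : ℝ) ^ (costOutside (RingHom.id ℂ) C H) := by
  induction C generalizing w B H with
  | nil =>
    intro f
    have h0 : costOutside (RingHom.id ℂ) [] H = 0 := by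
      unfold costOutside
      exact Fin.sum_univ_zero _
    rw [h0, Real.rpow_zero, mul_one]
    exact hw f
  | cons g C ih =>
    have hS : GR.Bd (Set.range fun i => w.getD i 0) B := by
      intro r hr
      choose f hf using hr
      have h1 := hw f
      have h2 : (fun i => w.getD (f i) 0) = r := by
        funext i
        exact hf i
      rw [h2] at h1
      exact h1
    have hbd : GR.Bd (insert (g.eval w) (Set.range fun i => w.getD i 0))
        (B * (2 : ℝ) ^ (if 0 ∈ H then (0 : ℝ) else g.cost (RingHom.id ℂ))) := by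
      by_cases h0 : 0 ∈ H
      · rw [if_pos h0, Real.rpow_zero]
        have h1 := hH 0 h0 (by simp)
        have h2 : g.eval w = 0 := by
          rw [run, GR.run_getD _ _ (by simp), Nat.add_zero] at h1
          simpa [List.getD_eq_getElem?_getD] using h1
        rw [h2]
        exact GR.bd_zero hB hS
      · rw [if_neg h0]
        cases g with
        | add i j =>
          have h1 : (Gate.add i j).cost (RingHom.id ℂ) = 1 := rfl
          rw [h1, Real.rpow_one]
          exact GR.bd_add hB hS ⟨i, rfl⟩ ⟨j, rfl⟩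
        | sub i j =>
          have h1 : (Gate.sub i j).cost (RingHom.id ℂ) = 1 := rfl
          rw [h1, Real.rpow_one]
          exact GR.bd_sub hB hS ⟨i, rfl⟩ ⟨j, rfl⟩
        | smul c i =>
          have h1 : (Gate.smul c i).cost (RingHom.id ℂ) = Real.logb 2 (max 1 ‖c‖) := rfl
          rw [h1, Real.rpow_logb (by norm_num) (by norm_num) (by positivity)]
          exact GR.bd_smul hB hS ⟨i, rfl⟩ c
    obtain ⟨H', hH'⟩ : ∃ H' : Finset ℕ, ∀ i, i ∈ H' ↔ i + 1 ∈ H := by
      refine ⟨(H.image (fun i => i - 1)).filter (fun i => i + 1 ∈ H), fun i => ?_⟩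
      rw [Finset.mem_filter, Finset.mem_image]
      refine ⟨fun h => h.2, fun h => ⟨⟨i + 1, h, by omega⟩, h⟩⟩
    intro f
    rw [GR.costOutside_cons g C H H' hH', Real.rpow_add (by norm_num), ← mul_assoc]
    refine ih (w ++ [g.eval w]) _ (by positivity) ?_ _ ?_ f
    · intro f
      exact hbd _ fun i => GR.range_append w _ (f i)
    · intro i hi hl
      have h1 := hH (i + 1) ((hH' i).mp hi) (by simp; omega)
      rw [run] at h1
      have h2 : (w ++ [g.eval w]).length + i = w.length + (i + 1) := by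
        simp
        omega
      rw [h2]
      exact h1

end Vale.P344
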