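import Vale.Agent.P344.Forms
import Vale.Agent.P344.CB
import Vale.Agent.P344.Basis
import Vale.Agent.P344.Grow

namespace Vale.P344

open Finset Matrix

/-! Row HE: Morgenstern's bound with help gates, for every embedding. -/

/-- Apply a ring homomorphism to the scalars of a gate. -/
noncomputable def Gate.twist (σ : ℂ →+* ℂ) : Gate → Gate
  | .add i j => .add i j
  | .sub i j => .sub i j
  | .smul c i => .smul (σ c) i

theorem eval_twist {n : ℕ} (σ : ℂ →+* ℂ) (g : Gate) (v : List (Fin n → ℂ)) :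
    (g.twist σ).eval (v.map (fun w => σ ∘ w)) = σ ∘ (g.eval v) := by
  have h0 : (fun w : Fin n → ℂ => (σ ∘ w : Fin n → ℂ)) 0 = 0 := by
    funext j; simp
  cases g <;> simp only [Gate.eval, Gate.twist] <;>
    simp only [getD_map_zero (fun w : Fin n → ℂ => (σ ∘ w : Fin n → ℂ)) h0] <;>
    funext j <;> simp

theorem run_twist {n : ℕ} (σ : ℂ →+* ℂ) (C : List Gate) (v : List (Fin n → ℂ)) :
    run (C.map (Gate.twist σ)) (v.map (fun w => σ ∘ w)) = (run C v).map (fun w => σ ∘ w) := by
  induction C generalizing v with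
  | nil => rfl
  | cons g C ih =>
    simp only [run, List.map_cons]
    rw [eval_twist, ← ih]
    simp

theorem E_twist {n : ℕ} (σ : ℂ →+* ℂ) : (E n).map (fun w => (σ ∘ w : Fin n → ℂ)) = E n := by
  simp only [E, List.map_cons, List.map_ofFn]
  congr 1
  · funext j; simp
  · congr 1
    funext j
    funext i
    by_cases h : i = j
    · subst h; simp
    · simp [h]

theorem cost_twist (σ : ℂ →+* ℂ) (g : Gate) : (g.twist σ).cost (RingHom.id ℂ) = g.cost σ := by
  cases g <;> simp [Gate.twist, Gate.cost]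

theorem costOutside_twist (σ : ℂ →+* ℂ) (C : List Gate) (H : Finset ℕ) :
    costOutside (RingHom.id ℂ) (C.map (Gate.twist σ)) H = costOutside σ C H := by
  unfold costOutside
  refine Fintype.sum_equiv (finCongr (by simp)) _ _ fun i => ?_
  simp [cost_twist]

theorem cost_nonneg (σ : ℂ →+* ℂ) (g : Gate) : 0 ≤ g.cost σ := by
  cases g with
  | add => simp [Gate.cost]
  | sub => simp [Gate.cost]
  | smul c i => exact Real.logb_nonneg (by norm_num) (le_max_left _ _)

theorem costOutside_nonneg (σ : ℂ →+* ℂ) (C : List Gate) (H : Finset ℕ) :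
    0 ≤ costOutside σ C H := by
  unfold costOutside
  refine Finset.sum_nonneg fun i _ => ?_
  split_ifs
  · exact le_rfl
  · exact cost_nonneg σ _

/-- Row vector times `R`. -/
noncomputable def timesR {n m : ℕ} (R : Matrix (Fin n) (Fin m) ℂ) :
    (Fin n → ℂ) →ₗ[ℂ] (Fin m → ℂ) := Matrix.vecMulLinear R

theorem card_orderEmb_le (m n : ℕ) : Fintype.card (Fin m ↪o Fin n) ≤ 2 ^ n := by
  classical
  have : Function.Injective (fun J : Fin m ↪o Fin n => (univ.image J : Finset (Fin n))) := by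
    intro J K h
    have h' : Set.range J = Set.range K := by
      have := congrArg (fun s : Finset (Fin n) => (s : Set (Fin n))) h
      simpa using this
    exact OrderEmbedding.range_inj.mp h'
  have := Fintype.card_le_of_injective _ this
  simpa using this

theorem dft_gram {n : ℕ} (hn : 0 < n) (ω : ℂ) (hω : IsPrimitiveRoot ω n) :
    (Matrix.of fun k j : Fin n => ω ^ ((j : ℕ) * (k : ℕ)))ᴴ *
      (Matrix.of fun k j : Fin n => ω ^ ((j : ℕ) * (k : ℕ))) = (n : ℂ) • (1 : Matrix _ _ ℂ) := by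
  have hnorm : ‖ω‖ = 1 := hω.norm'_eq_one hn.ne'
  have hω0 : ω ≠ 0 := hω.ne_zero hn.ne'
  have hconj : (starRingEnd ℂ) ω = ω⁻¹ := by
    rw [Complex.inv_def, Complex.normSq_eq_norm_sq, hnorm]; simp
  ext i j
  rw [Matrix.mul_apply, Matrix.smul_apply, Matrix.one_apply]
  simp only [Matrix.conjTranspose_apply, Matrix.of_apply, star_pow, RCLike.star_def, hconj]
  have key : ∀ k : Fin n, (ω⁻¹) ^ ((i : ℕ) * (k : ℕ)) * ω ^ ((j : ℕ) * (k : ℕ)) =
      ((ω⁻¹) ^ (i : ℕ) * ω ^ (j : ℕ)) ^ (k : ℕ) := fun k => by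
    rw [mul_pow, ← pow_mul, ← pow_mul]
  rw [Finset.sum_congr rfl fun k _ => key k,
    Fin.sum_univ_eq_sum_range (fun k => ((ω⁻¹) ^ (i : ℕ) * ω ^ (j : ℕ)) ^ k) n]
  split_ifs with hij
  · subst hij
    have : (ω⁻¹) ^ (i : ℕ) * ω ^ (i : ℕ) = 1 := by
      rw [← mul_pow, inv_mul_cancel₀ hω0, one_pow]
    rw [this]; simp
  · have h1 : (ω⁻¹) ^ (i : ℕ) * ω ^ (j : ℕ) ≠ 1 := by
      intro h
      have h2 : ω ^ (j : ℕ) = ω ^ (i : ℕ) := by
        have := congrArg (fun z => ω ^ (i : ℕ) * z) h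
        simp only [← mul_assoc, ← mul_pow, mul_inv_cancel₀ hω0, one_pow, one_mul, mul_one] at this
        exact this
      exact hij (Fin.ext (hω.pow_inj i.2 j.2 h2.symm))
    have h2 : ((ω⁻¹) ^ (i : ℕ) * ω ^ (j : ℕ)) ^ n = 1 := by
      rw [mul_pow, ← pow_mul, ← pow_mul, mul_comm _ n, mul_comm _ n, pow_mul, pow_mul,
        inv_pow, hω.pow_eq_one]
      simp
    rw [geom_sum_eq h1, h2]; simp

theorem help_primitive {n : ℕ} (hn : 0 < n) {C : List Gate} (ω : ℂ) (hω : IsPrimitiveRoot ω n)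
    (out : Fin n → ℕ)
    (hout : ∀ k : Fin n, (run C (E n)).getD (out k) 0 = fun j : Fin n => ω ^ ((j : ℕ) * (k : ℕ)))
    (H : Finset ℕ) :
    ((n : ℝ) - H.card) / 2 * Real.logb 2 n - n / 2 ≤ costOutside (RingHom.id ℂ) C H := by
  classical
  -- the subspace on which the help gates vanish
  let Φ : (Fin n → ℂ) →ₗ[ℂ] (H → ℂ) := LinearMap.pi fun i =>
    evalAt ((run C (E n)).getD ((E n).length + (i : ℕ)) 0)
  let K : Submodule ℂ (Fin n → ℂ) := LinearMap.ker Φ
  have hdim : n ≤ H.card + Module.finrank ℂ K := by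
    have h1 := LinearMap.finrank_range_add_finrank_ker Φ
    have h2 : Module.finrank ℂ (LinearMap.range Φ) ≤ Module.finrank ℂ (H → ℂ) :=
      Submodule.finrank_le _
    simp only [Module.finrank_fintype_fun_eq_card, Fintype.card_fin, Fintype.card_coe] at h1 h2
    have h3 : Module.finrank ℂ K = Module.finrank ℂ (LinearMap.ker Φ) := rfl
    omega
  obtain ⟨m, hm⟩ : ∃ m, Module.finrank ℂ K = m := ⟨_, rfl⟩
  obtain ⟨R, hRK, hR1, J₀, hJ₀⟩ := exists_good_basis K hm
  rw [hm] at hdim
  let ψ : (Fin n → ℂ) →ₗ[ℂ] (Fin m → ℂ) := timesR R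
  have hψ : ∀ w j, ψ w j = ∑ i, w i * R i j := fun w j => rfl
  -- initial minors
  have hinit : ∀ f : Fin m → ℕ,
      ‖(Matrix.of fun i => ((E n).map ψ).getD (f i) 0).det‖ ≤ 1 := by
    intro f
    by_cases hf : ∃ g : Fin m → Fin n, ∀ i, f i = (g i : ℕ) + 1
    · obtain ⟨g, hg⟩ := hf
      have : (Matrix.of fun i => ((E n).map ψ).getD (f i) 0) = R.submatrix g id := by
        ext i j
        rw [Matrix.of_apply, getD_map_zero _ (map_zero _), hg i]
        simp only [E, List.getD_cons_succ, Matrix.submatrix_apply, id]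
        rw [List.getD_eq_getElem?_getD, List.getElem?_ofFn]
        simp [hψ, Pi.single_apply]
      rw [this]
      exact hR1 g
    · push Not at hf
      have : ∃ i, ∀ a : Fin n, f i ≠ a + 1 := by
        by_contra hcon
        push Not at hcon
        choose g hg using hcon
        obtain ⟨i, hi⟩ := hf g
        exact hi (hg i)
      obtain ⟨i, hi⟩ := this
      have hz : ((E n).map ψ).getD (f i) 0 = 0 := by
        rw [getD_map_zero _ (map_zero _)]
        have : (E n).getD (f i) 0 = 0 := by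
          rcases Nat.eq_zero_or_pos (f i) with h0 | h0
          · rw [h0]; simp [E]
          · rw [List.getD_eq_getElem?_getD, List.getElem?_eq_none]
            · rfl
            · simp only [E, List.length_cons, List.length_ofFn]
              by_contra hlt
              push Not at hlt
              exact hi ⟨f i - 1, by omega⟩ (by simp; omega)
        rw [this, map_zero]
      rw [Matrix.det_eq_zero_of_row_eq_zero i (fun j => by
        rw [Matrix.of_apply, hz]; rfl)]
      simp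
  have hH : ∀ i ∈ H, i < C.length →
      (run C ((E n).map ψ)).getD (((E n).map ψ).length + i) 0 = 0 := by
    intro i hi _
    rw [run_map, getD_map_zero _ (map_zero _), List.length_map]
    funext j
    rw [hψ]
    have := hRK j
    have h2 : Φ (fun i => R i j) ⟨i, hi⟩ = 0 := by
      have := LinearMap.mem_ker.mp this
      rw [this]; rfl
    simp only [Φ, LinearMap.pi_apply, evalAt_apply] at h2
    rw [Pi.zero_apply, ← h2]
    exact Finset.sum_congr rfl fun x _ => mul_comm _ _
  have hgrow := grow C ((E n).map ψ) 1 zero_le_one hinit H hH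
  rw [one_mul] at hgrow
  set c := costOutside (RingHom.id ℂ) C H with hc
  set F : Matrix (Fin n) (Fin n) ℂ := Matrix.of fun k j : Fin n => ω ^ ((j : ℕ) * (k : ℕ)) with hF
  have hminor : ∀ J : Fin m ↪o Fin n, ‖((F * R).submatrix J id).det‖ ≤ (2 : ℝ) ^ c := by
    intro J
    have h1 := hgrow (fun i => out (J i))
    have : (Matrix.of fun i => (run C ((E n).map ψ)).getD (out (J i)) 0) =
        (F * R).submatrix J id := by
      ext i j
      rw [Matrix.of_apply, run_map, getD_map_zero _ (map_zero _), hout (J i), hψ,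
        Matrix.submatrix_apply, Matrix.mul_apply]
      rfl
    rwa [this] at h1
  -- Gram determinants
  have hg1 : ((F * R)ᴴ * (F * R)).det = (n : ℂ) ^ m * (Rᴴ * R).det := by
    rw [Matrix.conjTranspose_mul, Matrix.mul_assoc, ← Matrix.mul_assoc Fᴴ F R,
      dft_gram hn ω hω, Matrix.smul_mul, Matrix.one_mul, Matrix.mul_smul, Matrix.det_smul]
    simp
  rw [det_gram, det_gram] at hg1
  have hg2 : (∑ J : Fin m ↪o Fin n, ‖((F * R).submatrix J id).det‖ ^ 2) =
      (n : ℝ) ^ m * ∑ J : Fin m ↪o Fin n, ‖(R.submatrix J id).det‖ ^ 2 := by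
    exact_mod_cast hg1
  have hup : (∑ J : Fin m ↪o Fin n, ‖((F * R).submatrix J id).det‖ ^ 2) ≤
      (2 : ℝ) ^ n * ((2 : ℝ) ^ c) ^ 2 := by
    calc (∑ J : Fin m ↪o Fin n, ‖((F * R).submatrix J id).det‖ ^ 2)
        ≤ ∑ _J : Fin m ↪o Fin n, ((2 : ℝ) ^ c) ^ 2 :=
          Finset.sum_le_sum fun J _ => pow_le_pow_left₀ (norm_nonneg _) (hminor J) 2
      _ = (Fintype.card (Fin m ↪o Fin n) : ℝ) * ((2 : ℝ) ^ c) ^ 2 := by
          rw [Finset.sum_const, Finset.card_univ, nsmul_eq_mul]
      _ ≤ (2 : ℝ) ^ n * ((2 : ℝ) ^ c) ^ 2 := by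
          gcongr
          exact_mod_cast card_orderEmb_le m n
  have hlow : (1 : ℝ) ≤ ∑ J : Fin m ↪o Fin n, ‖(R.submatrix J id).det‖ ^ 2 := by
    calc (1 : ℝ) = ‖(R.submatrix J₀ id).det‖ ^ 2 := by rw [hJ₀]; norm_num
      _ ≤ _ := Finset.single_le_sum (f := fun J : Fin m ↪o Fin n =>
          ‖(R.submatrix J id).det‖ ^ 2) (fun _ _ => by positivity) (Finset.mem_univ J₀)
  have hn' : (0 : ℝ) < n := by exact_mod_cast hn
  have hmain : (n : ℝ) ^ m ≤ (2 : ℝ) ^ n * ((2 : ℝ) ^ c) ^ 2 := by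
    calc (n : ℝ) ^ m ≤ (n : ℝ) ^ m * ∑ J : Fin m ↪o Fin n, ‖(R.submatrix J id).det‖ ^ 2 :=
          le_mul_of_one_le_right (by positivity) hlow
      _ ≤ _ := by rw [← hg2]; exact hup
  have hlog := Real.logb_le_logb_of_le (b := 2) (by norm_num) (by positivity) hmain
  rw [Real.logb_mul (by positivity) (by positivity), Real.logb_pow, Real.logb_pow,
    Real.logb_pow, Real.logb_rpow (by norm_num) (by norm_num), Real.logb_self_eq_one (by norm_num)]
    at hlog
  have hnn : 0 ≤ Real.logb 2 (n : ℝ) :=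
    Real.logb_nonneg (by norm_num) (by exact_mod_cast hn)
  have hdim' : (n : ℝ) - H.card ≤ m := by
    have : (n : ℝ) ≤ H.card + m := by exact_mod_cast hdim
    linarith
  have := mul_le_mul_of_nonneg_right hdim' hnn
  push_cast at hlog
  nlinarith

theorem help_gates {n : ℕ} (hn : 0 < n) {C : List Gate} (h : Computes n C) (σ : ℂ →+* ℂ)
    (H : Finset ℕ) :
    ((n : ℝ) - H.card) / 2 * Real.logb 2 n - n / 2 ≤ costOutside σ C H := by
  obtain ⟨out, hout⟩ := computes_iff.mp h
  have hω : IsPrimitiveRoot (σ (zeta n)) n :=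
    (zeta_isPrimitiveRoot hn).map_of_injective σ.injective
  have h2 : ∀ k : Fin n, (run (C.map (Gate.twist σ)) (E n)).getD (out k) 0 =
      fun j : Fin n => σ (zeta n) ^ ((j : ℕ) * (k : ℕ)) := by
    intro k
    have h3 := run_twist σ C (E n)
    rw [E_twist] at h3
    rw [h3, getD_map_zero (fun w : Fin n → ℂ => (σ ∘ w : Fin n → ℂ))
      (by funext j; simp), hout k]
    funext j
    simp
  have := help_primitive hn (σ (zeta n)) hω out h2 H
  rwa [costOutside_twist] at this

end Vale.P344
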