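import Vale.Agent.P344.Defs

namespace Vale.P344

open Finset

/-! Row IR: at least `n - d(n)` irrational scalars.
All computed forms are in the `ℚ`-span of the coordinates and of the values of the irrational
scalar gates.  So the `ℚ`-space of rational `q` with `q F_n` rational has dimension at least
`n - irr C`; `q F_n` is then constant on the orbits of the units of `ℤ/n`
(cyclotomic polynomial irreducible), `ZMod.eq_unit_mul_divisor`: dimension at most `d(n)`. -/

namespace Irr

section RunMap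

variable {V W : Type*} [AddCommGroup V] [Module ℂ V] [AddCommGroup W] [Module ℂ W]

theorem getD_map' (f : V →ₗ[ℂ] W) (v : List V) (i : ℕ) :
    (v.map f).getD i 0 = f (v.getD i 0) := by
  have h := List.getD_map (l := v) (d := (0 : V)) (n := i) (f := f)
  rw [map_zero] at h
  exact h

theorem eval_map (f : V →ₗ[ℂ] W) (g : Gate) (v : List V) :
    g.eval (v.map f) = f (g.eval v) := by
  cases g <;> simp only [Gate.eval, getD_map', map_add, map_sub, map_smul]

theorem run_map (f : V →ₗ[ℂ] W) (C : List Gate) (v : List V) :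
    run C (v.map f) = (run C v).map f := by
  induction C generalizing v with
  | nil => rfl
  | cons g C ih =>
    show run C (v.map f ++ [g.eval (v.map f)]) = (run C (v ++ [g.eval v])).map f
    rw [← ih, eval_map, List.map_append, List.map_singleton]

end RunMap

section SpanRun

variable {V : Type*} [AddCommGroup V] [Module ℂ V] [Module ℚ V]

omit [Module ℂ V] in
theorem mem_append {v : List V} {U : Submodule ℚ V} (h : ∀ p, v.getD p 0 ∈ U) {w : V}
    (hw : w ∈ U) (p : ℕ) : (v ++ [w]).getD p 0 ∈ U := by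
  rcases lt_or_ge p v.length with hp | hp
  · rw [List.getD_append _ _ _ _ hp]
    exact h p
  · rw [List.getD_append_right _ _ _ _ hp]
    rcases p - v.length with _ | k
    · exact hw
    · simp

theorem span_run [IsScalarTower ℚ ℂ V] (C : List Gate) :
    ∀ (v : List V) (U : Submodule ℚ V), (∀ p, v.getD p 0 ∈ U) →
      ∃ T : Finset V, T.card ≤ irr C ∧
        ∀ p, (run C v).getD p 0 ∈ U ⊔ Submodule.span ℚ (T : Set V) := by
  classical
  induction C with
  | nil =>
    intro v U h
    exact ⟨∅, le_refl _, fun p => Submodule.mem_sup_left (h p)⟩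
  | cons g C ih =>
    intro v U h
    cases g with
    | add i j => exact ih _ U (mem_append h (U.add_mem (h i) (h j)))
    | sub i j => exact ih _ U (mem_append h (U.sub_mem (h i) (h j)))
    | smul c i =>
      by_cases hc : c ∈ Set.range (algebraMap ℚ ℂ)
      · obtain ⟨r, hr⟩ := hc
        have hm : c • v.getD i 0 ∈ U := by
          rw [← hr, algebraMap_smul]
          exact U.smul_mem r (h i)
        obtain ⟨T, hT, hTm⟩ := ih _ U (mem_append h hm)
        exact ⟨T, hT.trans (by simp only [irr]; omega), hTm⟩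
      · obtain ⟨T, hT, hTm⟩ := ih _ (U ⊔ Submodule.span ℚ {c • v.getD i 0})
          (mem_append (fun p => Submodule.mem_sup_left (h p))
            (Submodule.mem_sup_right (Submodule.mem_span_singleton_self _)))
        refine ⟨insert (c • v.getD i 0) T, ?_, fun p => ?_⟩
        · refine (card_insert_le _ _).trans ?_
          simp only [irr, if_neg hc]
          omega
        · have := hTm p
          rw [sup_assoc, ← Submodule.span_union, ← Set.insert_eq] at this
          rw [coe_insert]
          exact this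

end SpanRun

theorem zeta_prim {n : ℕ} (hn : 0 < n) : IsPrimitiveRoot (zeta n) n :=
  Complex.isPrimitiveRoot_exp n hn.ne'

/-- rationality and the Galois action -/
theorem galois {n : ℕ} (hn : 0 < n) (q : Fin n → ℚ) (m : ℕ) (r : ℚ)
    (h : ∑ k : Fin n, (q k : ℂ) * zeta n ^ (m * (k : ℕ)) = r) (u : ℕ) (hu : u.Coprime n) :
    ∑ k : Fin n, (q k : ℂ) * zeta n ^ (u * m * (k : ℕ)) = r := by
  have hz := zeta_prim hn
  let P : Polynomial ℚ := ∑ k : Fin n, Polynomial.C (q k) * Polynomial.X ^ (m * (k : ℕ)) -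
    Polynomial.C r
  have hP : ∀ z : ℂ, Polynomial.aeval z P = ∑ k : Fin n, (q k : ℂ) * z ^ (m * (k : ℕ)) - r := by
    intro z
    simp only [P, map_sub, map_sum, map_mul, map_pow, Polynomial.aeval_X, Polynomial.aeval_C]
    rfl
  have h1 : minpoly ℚ (zeta n) ∣ P := minpoly.dvd ℚ _ (by rw [hP, h, sub_self])
  have h2 : minpoly ℚ (zeta n ^ u) = minpoly ℚ (zeta n) := by
    rw [← Polynomial.cyclotomic_eq_minpoly_rat hz hn,
      ← Polynomial.cyclotomic_eq_minpoly_rat (hz.pow_of_coprime u hu) hn]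
  have h3 : Polynomial.aeval (zeta n ^ u) P = 0 := by
    obtain ⟨Q, hQ⟩ := h1
    rw [hQ, map_mul, ← h2, minpoly.aeval, zero_mul]
  rw [hP, sub_eq_zero] at h3
  rw [← h3]
  refine sum_congr rfl fun k _ => ?_
  rw [← pow_mul, mul_assoc]

theorem zeta_pow_mod {n : ℕ} (hn : 0 < n) {a b : ℕ} (h : a ≡ b [MOD n]) :
    zeta n ^ a = zeta n ^ b := by
  have hz := (zeta_prim hn).pow_eq_one
  rw [← Nat.div_add_mod a n, ← Nat.div_add_mod b n, pow_add, pow_add, pow_mul, pow_mul, hz,
    one_pow, one_pow, h]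

/-- a rational vector with rational transform vanishing at the divisors is zero -/
theorem eq_zero {n : ℕ} (hn : 0 < n) (q a : Fin n → ℚ)
    (h : ∀ j : Fin n, ∑ k : Fin n, (q k : ℂ) * zeta n ^ ((j : ℕ) * (k : ℕ)) = a j)
    (hd : ∀ d ∈ n.divisors, a ⟨d % n, Nat.mod_lt _ hn⟩ = 0) : q = 0 := by
  have : NeZero n := ⟨hn.ne'⟩
  have hz := zeta_prim hn
  have hmod : ∀ m : ℕ, ∑ k : Fin n, (q k : ℂ) * zeta n ^ (m * (k : ℕ)) =
      a ⟨m % n, Nat.mod_lt _ hn⟩ := by
    intro m
    rw [← h]
    refine sum_congr rfl fun k _ => ?_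
    congr 1
    exact zeta_pow_mod hn ((Nat.mod_modEq m n).symm.mul_right _)
  have ha : ∀ j : Fin n, a j = 0 := by
    intro j
    obtain ⟨d, hdn, u, hu, hj⟩ := ZMod.eq_unit_mul_divisor ((j : ℕ) : ZMod n)
    have hcop : (u.val).Coprime n := by
      obtain ⟨w, rfl⟩ := hu
      exact ZMod.val_coe_unit_coprime w
    have hjm : ((j : ℕ) : ZMod n) = ((u.val * d : ℕ) : ZMod n) := by
      rw [hj, Nat.cast_mul, ZMod.natCast_zmod_val]
    have hmm : (j : ℕ) ≡ u.val * d [MOD n] := (ZMod.natCast_eq_natCast_iff _ _ _).1 hjm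
    have e1 := galois hn q d _ (hmod d) u.val hcop
    rw [hd d (Nat.mem_divisors.2 ⟨hdn, hn.ne'⟩)] at e1
    have e2 := h j
    have e3 : ∑ k : Fin n, (q k : ℂ) * zeta n ^ ((j : ℕ) * (k : ℕ)) =
        ∑ k : Fin n, (q k : ℂ) * zeta n ^ (u.val * d * (k : ℕ)) := by
      refine sum_congr rfl fun k _ => ?_
      congr 1
      exact zeta_pow_mod hn (hmm.mul_right _)
    rw [e3, e1] at e2
    exact_mod_cast e2.symm
  let P : Polynomial ℂ := ∑ k : Fin n, Polynomial.C (q k : ℂ) * Polynomial.X ^ (k : ℕ)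
  have hP : P = 0 := by
    refine Polynomial.eq_zero_of_natDegree_lt_card_of_eval_eq_zero P
      (f := fun j : Fin n => zeta n ^ (j : ℕ)) ?_ ?_ ?_
    · intro i j hij
      exact Fin.ext (hz.pow_inj i.2 j.2 hij)
    · intro j
      have e := h j
      rw [ha j] at e
      simp only [P, Polynomial.eval_finsetSum, Polynomial.eval_mul, Polynomial.eval_C,
        Polynomial.eval_pow, Polynomial.eval_X, ← pow_mul]
      rw [e, Rat.cast_zero]
    · rw [Fintype.card_fin]
      refine lt_of_le_of_lt (Polynomial.natDegree_sum_le_of_forall_le (n := n - 1) _ _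
        fun k _ => ?_) (Nat.sub_lt hn one_pos)
      refine (Polynomial.natDegree_C_mul_X_pow_le _ _).trans ?_
      have := k.2
      omega
  ext k
  have hc : P.coeff (k : ℕ) = (q k : ℂ) := by
    simp only [P, Polynomial.finsetSum_coeff, Polynomial.coeff_C_mul_X_pow]
    rw [sum_eq_single k]
    · simp
    · intro b _ hb
      rw [if_neg]
      intro e
      exact hb (Fin.ext e.symm)
    · intro hk
      exact absurd (mem_univ k) hk
  rw [hP, Polynomial.coeff_zero] at hc
  exact_mod_cast hc.symm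

theorem lc_apply {n : ℕ} (v : Fin n → ((Fin n → ℂ) → ℂ)) (a : Fin n → ℚ) (x : Fin n → ℂ) :
    Fintype.linearCombination ℚ v a x = ∑ i, (a i : ℂ) * v i x := by
  rw [Fintype.linearCombination_apply, Finset.sum_apply]
  refine sum_congr rfl fun i _ => ?_
  rw [Pi.smul_apply, Rat.smul_def]

end Irr

theorem irr_ge {n : ℕ} (hn : 0 < n) {C : List Gate} (h : Computes n C) :
    n ≤ irr C + n.divisors.card := by
  classical
  obtain ⟨out, hout⟩ := h
  let V : Type := (Fin n → ℂ) → ℂ
  let crd : Fin n → V := fun j x => x j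
  let F : Fin n → V := fun k x => ∑ j : Fin n, zeta n ^ ((j : ℕ) * (k : ℕ)) * x j
  have hF : ∀ k, (run C (0 :: List.ofFn crd)).getD (out k) 0 = F k := by
    intro k
    ext x
    have h1 := Irr.run_map (LinearMap.proj x : V →ₗ[ℂ] ℂ) C (0 :: List.ofFn crd)
    have h2 : (0 :: List.ofFn crd).map (LinearMap.proj x : V →ₗ[ℂ] ℂ) = 0 :: List.ofFn x := by
      rw [List.map_cons, map_zero, List.map_ofFn]
      rfl
    have h3 := Irr.getD_map' (LinearMap.proj x : V →ₗ[ℂ] ℂ) (run C (0 :: List.ofFn crd)) (out k)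
    rw [← h1, h2, hout x k] at h3
    exact h3.symm
  let Th : (Fin n → ℚ) →ₗ[ℚ] V := Fintype.linearCombination ℚ crd
  let Ph : (Fin n → ℚ) →ₗ[ℚ] V := Fintype.linearCombination ℚ F
  have hTh : ∀ (a : Fin n → ℚ) (j : Fin n), Th a (Pi.single j 1) = a j := by
    intro a j
    refine (Irr.lc_apply crd a (Pi.single j 1)).trans ?_
    simp only [crd]
    rw [sum_eq_single j]
    · rw [Pi.single_eq_same, mul_one]
    · intro b _ hb
      rw [Pi.single_eq_of_ne hb, mul_zero]
    · intro hk
      exact absurd (mem_univ j) hk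
  have hPh : ∀ (q : Fin n → ℚ) (j : Fin n), Ph q (Pi.single j 1) =
      ∑ k : Fin n, (q k : ℂ) * zeta n ^ ((j : ℕ) * (k : ℕ)) := by
    intro q j
    refine (Irr.lc_apply F q (Pi.single j 1)).trans ?_
    refine sum_congr rfl fun k _ => ?_
    simp only [F]
    rw [sum_eq_single j]
    · rw [Pi.single_eq_same, mul_one]
    · intro b _ hb
      rw [Pi.single_eq_of_ne hb, mul_zero]
    · intro hk
      exact absurd (mem_univ j) hk
  let U : Submodule ℚ V := LinearMap.range Th
  have hcrd : ∀ j, crd j ∈ U := fun j => ⟨Pi.single j 1, by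
    simp [Th, Fintype.linearCombination_apply, Pi.single_apply]⟩
  obtain ⟨T, hT, hTm⟩ := Irr.span_run C (0 :: List.ofFn crd) U (by
    intro p
    rcases p with _ | p
    · exact U.zero_mem
    · show (List.ofFn crd).getD p 0 ∈ U
      rcases lt_or_ge p n with hp | hp
      · rw [List.getD_eq_getElem _ _ (by rw [List.length_ofFn]; exact hp), List.getElem_ofFn]
        exact hcrd _
      · rw [List.getD_eq_default _ _ (by rw [List.length_ofFn]; exact hp)]
        exact U.zero_mem)
  let Ph' : (Fin n → ℚ) →ₗ[ℚ] (V ⧸ U) := U.mkQ.comp Ph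
  have hrange : LinearMap.range Ph' ≤ (Submodule.span ℚ (T : Set V)).map U.mkQ := by
    rintro _ ⟨q, rfl⟩
    have h1 : Ph q ∈ U ⊔ Submodule.span ℚ (T : Set V) := by
      simp only [Ph, Fintype.linearCombination_apply]
      refine Submodule.sum_mem _ fun k _ => Submodule.smul_mem _ _ ?_
      rw [← hF k]
      exact hTm _
    obtain ⟨y, hy, z, hz, hyz⟩ := Submodule.mem_sup.1 h1
    refine ⟨z, hz, ?_⟩
    show U.mkQ z = U.mkQ (Ph q)
    rw [← hyz, map_add, (Submodule.Quotient.mk_eq_zero U).2 hy |> fun e => show U.mkQ y = 0 from e,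
      zero_add]
  have h1 : Module.finrank ℚ (LinearMap.range Ph') ≤ irr C :=
    (Submodule.finrank_mono hrange).trans ((Submodule.finrank_map_le _ _).trans
      ((finrank_span_finset_le_card T).trans hT))
  have hinj : LinearMap.ker Th = ⊥ := by
    rw [LinearMap.ker_eq_bot']
    intro a ha
    ext j
    have h5 := hTh a j
    rw [ha] at h5
    have h6 : (a j : ℂ) = 0 := h5.symm
    exact_mod_cast h6
  obtain ⟨Th', hTh'⟩ := Th.exists_leftInverse_of_injective hinj
  let Ps : (LinearMap.ker Ph') →ₗ[ℚ] (n.divisors → ℚ) :=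
    LinearMap.pi fun d => (LinearMap.proj (⟨(d : ℕ) % n, Nat.mod_lt _ hn⟩ : Fin n)) ∘ₗ Th' ∘ₗ Ph ∘ₗ
      (LinearMap.ker Ph').subtype
  have hPs : Function.Injective Ps := by
    rw [← LinearMap.ker_eq_bot, LinearMap.ker_eq_bot']
    rintro ⟨q, hq⟩ hq0
    have h2 : Ph q ∈ U := by
      rw [LinearMap.mem_ker] at hq
      exact (Submodule.Quotient.mk_eq_zero U).1 hq
    obtain ⟨a, ha⟩ := h2
    have h3 : Th' (Ph q) = a := by
      rw [← ha]
      exact LinearMap.congr_fun hTh' a
    have h4 := Irr.eq_zero hn q a (fun j => by rw [← hPh, ← ha, hTh]) (fun d hd => by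
      have h5 := congrFun hq0 ⟨d, hd⟩
      have h6 : Ps ⟨q, hq⟩ ⟨d, hd⟩ = Th' (Ph q) ⟨d % n, Nat.mod_lt _ hn⟩ := rfl
      rw [h6, h3] at h5
      exact h5)
    exact Subtype.ext h4
  have h2 : Module.finrank ℚ (LinearMap.ker Ph') ≤ n.divisors.card := by
    refine (LinearMap.finrank_le_finrank_of_injective hPs).trans ?_
    rw [Module.finrank_fintype_fun_eq_card, Fintype.card_coe]
  have h3 := LinearMap.finrank_range_add_finrank_ker Ph'
  rw [Module.finrank_fintype_fun_eq_card, Fintype.card_fin] at h3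
  omega

end Vale.P344
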