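import Vale.Agent.P344.Defs

namespace Vale.P344

open Finset

/-! Row NU: from the recursions to the asymptotic statement (pure arithmetic). -/

theorem numer_pow (f : ℕ → ℕ)
    (hct : ∀ q m : ℕ, 0 < q → 0 < m → f (q * m) ≤ q * f m + m * f q + q * m)
    (q : ℕ) (hq : 0 < q) (k : ℕ) :
    q * f (q ^ (k + 1)) ≤ (k + 1) * q ^ (k + 1) * (f q + q) := by
  induction k with
  | zero =>
    simp only [zero_add, pow_one, one_mul]
    exact Nat.mul_le_mul_left _ (Nat.le_add_right _ _)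
  | succ k ih =>
    have h1 := hct q (q ^ (k + 1)) hq (pow_pos hq _)
    have h2 : q ^ (k + 1 + 1) = q * q ^ (k + 1) := by ring
    rw [h2]
    calc q * f (q * q ^ (k + 1)) ≤ q * (q * f (q ^ (k + 1)) + q ^ (k + 1) * f q + q * q ^ (k + 1)) :=
          Nat.mul_le_mul_left _ h1
      _ = q * (q * f (q ^ (k + 1))) + q * q ^ (k + 1) * (f q + q) := by ring
      _ ≤ q * ((k + 1) * q ^ (k + 1) * (f q + q)) + q * q ^ (k + 1) * (f q + q) :=
          Nat.add_le_add_right (Nat.mul_le_mul_left _ ih) _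
      _ = (k + 1 + 1) * (q * q ^ (k + 1)) * (f q + q) := by ring

theorem numer_two (f : ℕ → ℕ) (h2 : f 2 ≤ 2)
    (hct : ∀ q m : ℕ, 0 < q → 0 < m → f (q * m) ≤ q * f m + m * f q + q * m)
    (m : ℕ) (hm : 0 < m) (j : ℕ) :
    f (2 ^ j * m) ≤ 2 ^ j * f m + 2 * j * (2 ^ j * m) := by
  induction j with
  | zero => simp
  | succ j ih =>
    have h1 := hct 2 (2 ^ j * m) (by norm_num) (by positivity)
    have h3 : 2 ^ (j + 1) * m = 2 * (2 ^ j * m) := by ring
    rw [h3]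
    have h4 : 2 ^ j * m * f 2 ≤ 2 ^ j * m * 2 := Nat.mul_le_mul_left _ h2
    calc f (2 * (2 ^ j * m)) ≤ 2 * f (2 ^ j * m) + 2 ^ j * m * f 2 + 2 * (2 ^ j * m) := h1
      _ ≤ 2 * (2 ^ j * f m + 2 * j * (2 ^ j * m)) + 2 ^ j * m * 2 + 2 * (2 ^ j * m) := by
          gcongr
      _ = 2 ^ (j + 1) * f m + 2 * (j + 1) * (2 * (2 ^ j * m)) := by ring

theorem asymp (f : ℕ → ℕ) (h2 : f 2 ≤ 2)
    (hct : ∀ q m : ℕ, 0 < q → 0 < m → f (q * m) ≤ q * f m + m * f q + q * m)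
    (hbl : ∀ n N : ℕ, 0 < n → 2 * n ≤ N + 1 → f n ≤ 2 * f N + N + 2 * n)
    (q : ℕ) (hq : 2 ≤ q) (ε : ℝ) (hε : 0 < ε) :
    ∃ n₀ : ℕ, ∀ n ≥ n₀, (f n : ℝ) ≤
      (8 * (((f q : ℝ) + q) / (q * Real.logb 2 q)) + ε) * (n * Real.logb 2 n) := by
  have hq0 : 0 < q := by omega
  have hqR : (0 : ℝ) < q := by exact_mod_cast hq0
  have hlq : 1 ≤ Real.logb 2 q := by
    rw [Real.le_logb_iff_rpow_le (by norm_num) hqR]
    simpa using (show (2 : ℝ) ≤ q by exact_mod_cast hq)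
  set K : ℝ := ((f q : ℝ) + q) / (q * Real.logb 2 q) with hK
  have hK0 : 0 ≤ K := by positivity
  have hKq : ((f q : ℝ) + q) = K * (q * Real.logb 2 q) := by
    rw [hK]
    field_simp
  set C : ℝ := 8 * K + 16 * q + 6 with hC
  obtain ⟨n₁, hn₁⟩ : ∃ n₁ : ℕ, (2 : ℝ) ^ (C / ε) ≤ n₁ := exists_nat_ge _
  refine ⟨max (max n₁ q) 1, fun n hn => ?_⟩
  have hnn₁ : n₁ ≤ n := le_trans (le_max_left _ _) (le_trans (le_max_left _ _) hn)
  have hnq : q ≤ n := le_trans (le_max_right _ _) (le_trans (le_max_left _ _) hn)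
  have hn1 : 0 < n := lt_of_lt_of_le (by norm_num) (le_trans (le_max_right _ _) hn)
  have hnR : (0 : ℝ) < n := by exact_mod_cast hn1
  have hlog : C / ε ≤ Real.logb 2 n := by
    rw [Real.le_logb_iff_rpow_le (by norm_num) hnR]
    exact hn₁.trans (by exact_mod_cast hnn₁)
  have hClog : C ≤ ε * Real.logb 2 n := by
    rw [div_le_iff₀ hε] at hlog
    linarith
  -- the exponent of q
  set k := Nat.log q (2 * n) with hk
  have hk1 : q ^ k ≤ 2 * n := Nat.pow_log_le_self q (by omega)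
  have hk2 : 2 * n < q ^ (k + 1) := Nat.lt_pow_succ_log_self (by omega) _
  have hk0 : 1 ≤ k := by
    rw [hk]
    exact Nat.log_pos (by omega) (by omega)
  obtain ⟨k', hk'⟩ : ∃ k', k = k' + 1 := ⟨k - 1, by omega⟩
  -- the exponent of 2
  have hex : ∃ j : ℕ, 2 * n ≤ 2 ^ j * q ^ k := by
    refine ⟨q, hk2.le.trans ?_⟩
    rw [pow_succ, mul_comm]
    exact Nat.mul_le_mul_right _ Nat.lt_two_pow_self.le
  classical
  set j := Nat.find hex with hj
  have hj1 : 2 * n ≤ 2 ^ j * q ^ k := Nat.find_spec hex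
  have hjq : j ≤ q := by
    refine Nat.find_min' hex (hk2.le.trans ?_)
    rw [pow_succ, mul_comm]
    exact Nat.mul_le_mul_right _ Nat.lt_two_pow_self.le
  set N := 2 ^ j * q ^ k with hN
  have hN4 : N ≤ 4 * n := by
    rcases Nat.eq_zero_or_pos j with h0 | h0
    · rw [hN, h0]
      simp only [pow_zero, one_mul]
      omega
    · have h3 : ¬ (2 * n ≤ 2 ^ (j - 1) * q ^ k) := Nat.find_min hex (by omega)
      have h4 : 2 ^ j = 2 * 2 ^ (j - 1) := by
        conv_lhs => rw [show j = (j - 1) + 1 by omega]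
        ring
      rw [hN, h4, mul_assoc]
      omega
  have hqk : 0 < q ^ k := pow_pos hq0 _
  have hfN : q * f N ≤ N * (k * (f q + q) + 2 * j * q) := by
    have e1 := numer_two f h2 hct (q ^ k) hqk j
    have e2 := numer_pow f hct q hq0 k'
    rw [← hk'] at e2
    calc q * f N ≤ q * (2 ^ j * f (q ^ k) + 2 * j * (2 ^ j * q ^ k)) := Nat.mul_le_mul_left _ e1
      _ = 2 ^ j * (q * f (q ^ k)) + 2 * j * q * N := by rw [hN]; ring
      _ ≤ 2 ^ j * (k * q ^ k * (f q + q)) + 2 * j * q * N :=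
          Nat.add_le_add_right (Nat.mul_le_mul_left _ e2) _
      _ = N * (k * (f q + q) + 2 * j * q) := by rw [hN]; ring
  have hfNR : (f N : ℝ) ≤ 4 * n * (k * (K * Real.logb 2 q) + 2 * q) := by
    have e1 : (q : ℝ) * f N ≤ N * (k * (f q + q) + 2 * j * q) := by exact_mod_cast hfN
    rw [hKq] at e1
    have e2 : (N : ℝ) ≤ 4 * n := by exact_mod_cast hN4
    have e3 : (j : ℝ) ≤ q := by exact_mod_cast hjq
    have hkk : (0 : ℝ) ≤ (k : ℝ) := Nat.cast_nonneg _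
    have e4 : (q : ℝ) * f N ≤ q * (4 * n * (k * (K * Real.logb 2 q) + 2 * q)) := by
      calc (q : ℝ) * f N ≤ N * (k * (K * (q * Real.logb 2 q)) + 2 * j * q) := e1
        _ ≤ (4 * n) * (k * (K * (q * Real.logb 2 q)) + 2 * q * q) := by
            gcongr
        _ = q * (4 * n * (k * (K * Real.logb 2 q) + 2 * q)) := by ring
    exact le_of_mul_le_mul_left e4 hqR
  have hklog : (k : ℝ) * Real.logb 2 q ≤ 1 + Real.logb 2 n := by
    have e1 : ((q : ℝ) ^ k) ≤ 2 * n := by exact_mod_cast hk1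
    have e2 : Real.logb 2 ((q : ℝ) ^ k) ≤ Real.logb 2 (2 * n) :=
      Real.logb_le_logb_of_le (by norm_num) (by positivity) e1
    rw [Real.logb_pow, Real.logb_mul (by norm_num) hnR.ne', Real.logb_self_eq_one (by norm_num)]
      at e2
    exact e2
  have hmain : (f n : ℝ) ≤ 2 * f N + N + 2 * n := by
    exact_mod_cast hbl n N hn1 (by omega)
  have hNR : (N : ℝ) ≤ 4 * n := by exact_mod_cast hN4
  have h5 : (k : ℝ) * (K * Real.logb 2 q) ≤ K * (1 + Real.logb 2 n) := by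
    calc (k : ℝ) * (K * Real.logb 2 q) = K * (k * Real.logb 2 q) := by ring
      _ ≤ K * (1 + Real.logb 2 n) := mul_le_mul_of_nonneg_left hklog hK0
  calc (f n : ℝ) ≤ 2 * f N + N + 2 * n := hmain
    _ ≤ 2 * (4 * n * (k * (K * Real.logb 2 q) + 2 * q)) + 4 * n + 2 * n := by gcongr
    _ ≤ 2 * (4 * n * (K * (1 + Real.logb 2 n) + 2 * q)) + 4 * n + 2 * n := by gcongr
    _ = 8 * K * (n * Real.logb 2 n) + C * n := by rw [hC]; ring
    _ ≤ 8 * K * (n * Real.logb 2 n) + (ε * Real.logb 2 n) * n := by gcongr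
    _ = (8 * K + ε) * (n * Real.logb 2 n) := by ring

theorem dichotomy (f : ℕ → ℕ)
    (h : ∀ q : ℕ, 2 ≤ q → ∀ ε : ℝ, 0 < ε → ∃ n₀ : ℕ, ∀ n ≥ n₀, (f n : ℝ) ≤
      (8 * (((f q : ℝ) + q) / (q * Real.logb 2 q)) + ε) * (n * Real.logb 2 n)) :
    (∃ c : ℝ, 0 < c ∧ ∃ n₀ : ℕ, ∀ n ≥ n₀, c * (n * Real.logb 2 n) ≤ f n) ↔
    (∃ c : ℝ, 0 < c ∧ ∀ n₀ : ℕ, ∃ n ≥ n₀, c * (n * Real.logb 2 n) ≤ f n) := by
  constructor
  · rintro ⟨c, hc, n₀, hn₀⟩
    exact ⟨c, hc, fun m => ⟨max n₀ m, le_max_right _ _, hn₀ _ (le_max_left _ _)⟩⟩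
  · rintro ⟨c, hc, hinf⟩
    by_contra hcon
    push Not at hcon
    obtain ⟨n₁, hn₁⟩ : ∃ n₁ : ℕ, (2 : ℝ) ^ (32 / c) ≤ n₁ := exists_nat_ge _
    obtain ⟨q, hqn, hqf⟩ := hcon (c / 32) (by positivity) (max n₁ 2)
    have hq2 : 2 ≤ q := le_trans (le_max_right _ _) hqn
    have hqR : (0 : ℝ) < q := by
      have : 0 < q := by omega
      exact_mod_cast this
    have hlq : 32 / c ≤ Real.logb 2 q := by
      rw [Real.le_logb_iff_rpow_le (by norm_num) hqR]
      refine hn₁.trans ?_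
      exact_mod_cast le_trans (le_max_left _ _) hqn
    have hlq0 : 0 < Real.logb 2 q := lt_of_lt_of_le (by positivity) hlq
    have h1 : 1 ≤ c / 32 * Real.logb 2 q := by
      rw [div_le_iff₀ hc] at hlq
      linarith
    have hK : ((f q : ℝ) + q) / (q * Real.logb 2 q) ≤ c / 16 := by
      rw [div_le_iff₀ (by positivity)]
      have h2 : (q : ℝ) ≤ c / 32 * (q * Real.logb 2 q) := by
        calc (q : ℝ) = q * 1 := by ring
          _ ≤ q * (c / 32 * Real.logb 2 q) := mul_le_mul_of_nonneg_left h1 hqR.le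
          _ = c / 32 * (q * Real.logb 2 q) := by ring
      linarith
    obtain ⟨n₂, hn₂⟩ := h q hq2 (c / 4) (by positivity)
    obtain ⟨n, hn, hnf⟩ := hinf (max n₂ 2)
    have hn2 : 2 ≤ n := le_trans (le_max_right _ _) hn
    have hnR : (1 : ℝ) < n := by exact_mod_cast hn2
    have hL : 0 < (n : ℝ) * Real.logb 2 n :=
      mul_pos (by linarith) (Real.logb_pos (by norm_num) hnR)
    have h3 := hn₂ n (le_trans (le_max_left _ _) hn)
    have h4 : (8 * (((f q : ℝ) + q) / (q * Real.logb 2 q)) + c / 4) * (n * Real.logb 2 n) <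
        c * (n * Real.logb 2 n) := by
      refine mul_lt_mul_of_pos_right ?_ hL
      linarith
    linarith

end Vale.P344
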