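import Vale.Agent.P344.Defs

namespace Vale.P344

open Finset

/-! Row BR: properties of `Reach` and the bridge between circuits and `Reach`. -/

variable {V : Type*} [AddCommGroup V] [Module ℂ V]

theorem Step.mono {S S' : Set V} {w : V} (h : Step S w) (hS : S ⊆ S') : Step S' w := by
  obtain ⟨u, hu, v, hv, h⟩ := h
  exact ⟨u, hS hu, v, hS hv, h⟩

theorem Reach.mono {k l : ℕ} {S S' T T' : Set V} (h : Reach k S T) (hk : k ≤ l) (hS : S ⊆ S')
    (hT : T' ⊆ T) : Reach l S' T' := by
  induction k generalizing l S S' with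
  | zero =>
    have h0 : T ⊆ S := h
    have h1 : T' ⊆ S' := hT.trans (h0.trans hS)
    cases l with
    | zero => exact h1
    | succ l => exact Or.inl h1
  | succ k ih =>
    obtain ⟨l, rfl⟩ : ∃ l', l = l' + 1 := ⟨l - 1, by omega⟩
    rcases h with h | ⟨w, hw, h⟩
    · exact Or.inl (hT.trans (h.trans hS))
    · exact Or.inr ⟨w, hw.mono hS, ih h (by omega) (Set.insert_subset_insert hS)⟩

theorem Reach.of_subset {k : ℕ} {S T : Set V} (h : T ⊆ S) : Reach k S T := by
  cases k with
  | zero => exact h
  | succ k => exact Or.inl h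

theorem Reach.self_union {k : ℕ} {S T : Set V} (h : Reach k S T) : Reach k S (S ∪ T) := by
  induction k generalizing S with
  | zero =>
    have h0 : T ⊆ S := h
    exact Set.union_subset (Set.Subset.refl _) h0
  | succ k ih =>
    rcases h with h | ⟨w, hw, h⟩
    · exact Or.inl (Set.union_subset (Set.Subset.refl _) h)
    · exact Or.inr ⟨w, hw, (ih h).mono le_rfl (Set.Subset.refl _)
        (Set.union_subset_union_left _ (Set.subset_insert _ _))⟩

theorem Reach.trans {k l : ℕ} {S T U : Set V} (h : Reach k S T) (h' : Reach l (S ∪ T) U) :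
    Reach (k + l) S (S ∪ T ∪ U) := by
  induction k generalizing S with
  | zero =>
    have h0 : T ⊆ S := h
    have h1 : S ∪ T = S := Set.union_eq_self_of_subset_right h0
    rw [h1] at h' ⊢
    rw [Nat.zero_add]
    exact h'.self_union
  | succ k ih =>
    rcases h with h | ⟨w, hw, h⟩
    · have h1 : S ∪ T = S := Set.union_eq_self_of_subset_right h
      rw [h1] at h' ⊢
      exact h'.self_union.mono (by omega) (Set.Subset.refl _) (Set.Subset.refl _)
    · have h2 : k + 1 + l = (k + l) + 1 := by omega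
      rw [h2]
      refine Or.inr ⟨w, hw, ?_⟩
      refine (ih h (h'.mono le_rfl ?_ (Set.Subset.refl _))).mono le_rfl (Set.Subset.refl _) ?_
      · exact Set.union_subset_union_left _ (Set.subset_insert _ _)
      · exact Set.union_subset_union_left _
          (Set.union_subset_union_left _ (Set.subset_insert _ _))

theorem Reach.union {k l : ℕ} {S T U : Set V} (h : Reach k S T) (h' : Reach l S U) :
    Reach (k + l) S (T ∪ U) := by
  have h1 : Reach l (S ∪ T) U := h'.mono le_rfl Set.subset_union_left (Set.Subset.refl _)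
  refine (h.trans h1).mono le_rfl (Set.Subset.refl _) ?_
  exact Set.union_subset_union_left _ Set.subset_union_right

theorem Reach.biUnion {k m : ℕ} {S : Set V} {T : ℕ → Set V} (h : ∀ i < m, Reach k S (T i)) :
    Reach (m * k) S (⋃ i ∈ Set.Iio m, T i) := by
  induction m with
  | zero =>
    refine Reach.of_subset ?_
    intro x hx
    simp at hx
  | succ m ih =>
    have h1 := (ih (fun i hi => h i (by omega))).union (h m (by omega))
    refine h1.mono (by rw [Nat.succ_mul]) (Set.Subset.refl _) ?_
    intro x hx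
    simp only [Set.mem_iUnion, Set.mem_Iio] at hx
    obtain ⟨i, hi, hx⟩ := hx
    rcases Nat.lt_succ_iff_lt_or_eq.mp hi with hi | hi
    · left
      simp only [Set.mem_iUnion, Set.mem_Iio]
      exact ⟨i, hi, hx⟩
    · right
      exact hi ▸ hx

theorem Reach.smul {S : Set V} {u : V} (hu : u ∈ S) (c : ℂ) : Reach 1 S {c • u} := by
  refine Or.inr ⟨c • u, ⟨u, hu, u, hu, Or.inr (Or.inr ⟨c, rfl⟩)⟩, ?_⟩
  refine Reach.of_subset ?_
  rintro x rfl
  exact Set.mem_insert _ _

theorem Reach.add {S : Set V} {u v : V} (hu : u ∈ S) (hv : v ∈ S) : Reach 1 S {u + v} := by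
  refine Or.inr ⟨u + v, ⟨u, hu, v, hv, Or.inl rfl⟩, ?_⟩
  refine Reach.of_subset ?_
  rintro x rfl
  exact Set.mem_insert _ _

/-- `m` scalar multiplications. -/
theorem Reach.smuls {S : Set V} (m : ℕ) (u : ℕ → V) (c : ℕ → ℂ) (hu : ∀ i < m, u i ∈ S) :
    Reach m S ((fun i => c i • u i) '' Set.Iio m) := by
  have h := Reach.biUnion (k := 1) (m := m) (S := S) (T := fun i => {c i • u i})
    (fun i hi => Reach.smul (hu i hi) (c i))
  refine h.mono (by omega) (Set.Subset.refl _) ?_
  rintro x ⟨i, hi, rfl⟩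
  simp only [Set.mem_iUnion, Set.mem_Iio]
  exact ⟨i, hi, rfl⟩

/-- A linear combination. -/
theorem Reach.comb {S : Set V} (m : ℕ) (u : ℕ → V) (c : ℕ → ℂ) (h0 : (0 : V) ∈ S)
    (hu : ∀ i < m, u i ∈ S) : Reach (2 * m) S {∑ j ∈ range m, c j • u j} := by
  induction m with
  | zero =>
    refine Reach.of_subset ?_
    rintro x rfl
    simpa using h0
  | succ m ih =>
    have h1 := (ih (fun i hi => hu i (by omega))).union (Reach.smul (hu m (by omega)) (c m))
    have h2 : Reach 1 (S ∪ ({∑ j ∈ range m, c j • u j} ∪ {c m • u m}))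
        {∑ j ∈ range m, c j • u j + c m • u m} :=
      Reach.add (Or.inr (Or.inl rfl)) (Or.inr (Or.inr rfl))
    refine (h1.trans h2).mono (by omega) (Set.Subset.refl _) ?_
    rw [Finset.sum_range_succ]
    exact Set.subset_union_right

/-! ### From sequences of steps to circuits -/

omit [Module ℂ V] in
theorem br_getD_append_self (v : List V) (w : V) : (v ++ [w]).getD v.length 0 = w := by
  simp [List.getD_eq_getElem?_getD]

omit [Module ℂ V] in
theorem br_getD_append_lt (v : List V) (w : V) {i : ℕ} (hi : i < v.length) :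
    (v ++ [w]).getD i 0 = v.getD i 0 := by
  simp [List.getD_eq_getElem?_getD, List.getElem?_append_left hi]

omit [Module ℂ V] in
theorem br_getD_ge (v : List V) {i : ℕ} (hi : v.length ≤ i) : v.getD i 0 = 0 := by
  simp [List.getD_eq_getElem?_getD, List.getElem?_eq_none hi]

omit [Module ℂ V] in
theorem exists_getD_append (v : List V) (w : V) (i : ℕ) :
    ∃ j, (v ++ [w]).getD j 0 = v.getD i 0 := by
  by_cases hi : i < v.length
  · exact ⟨i, br_getD_append_lt v w hi⟩
  · refine ⟨v.length + 1, ?_⟩
    rw [br_getD_ge v (by omega), br_getD_ge]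
    simp

theorem exists_circuit {k : ℕ} {S T : Set V} (h : Reach k S T) (v : List V)
    (hv : S ⊆ Set.range fun i => v.getD i 0) :
    ∃ C : List Gate, C.length ≤ k ∧ T ⊆ Set.range fun i => (run C v).getD i 0 := by
  induction k generalizing S v with
  | zero =>
    have h0 : T ⊆ S := h
    exact ⟨[], le_rfl, h0.trans hv⟩
  | succ k ih =>
    rcases h with h | ⟨w, hw, h⟩
    · exact ⟨[], Nat.zero_le _, h.trans hv⟩
    · have key : ∃ g : Gate, g.eval v = w := by
        obtain ⟨u, hu, u', hu', hw⟩ := hw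
        obtain ⟨i, hi⟩ := hv hu
        obtain ⟨j, hj⟩ := hv hu'
        have hi' : v.getD i 0 = u := hi
        have hj' : v.getD j 0 = u' := hj
        rcases hw with hw | hw | ⟨c, hw⟩
        · exact ⟨Gate.add i j, by rw [Gate.eval, hi', hj', hw]⟩
        · exact ⟨Gate.sub i j, by rw [Gate.eval, hi', hj', hw]⟩
        · exact ⟨Gate.smul c i, by rw [Gate.eval, hi', hw]⟩
      obtain ⟨g, hg⟩ := key
      obtain ⟨C, hC, hT⟩ := ih h (v ++ [w]) (by
        rw [Set.insert_subset_iff]
        refine ⟨⟨v.length, br_getD_append_self v w⟩, ?_⟩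
        intro x hx
        obtain ⟨i, hi⟩ := hv hx
        obtain ⟨j, hj⟩ := exists_getD_append v w i
        exact ⟨j, hj.trans hi⟩)
      refine ⟨g :: C, ?_, ?_⟩
      · simp only [List.length_cons]
        omega
      · rw [run, hg]
        exact hT

/-! ### From circuits to sequences of steps -/

theorem reach_of_circuit (C : List Gate) (v : List V) :
    Reach C.length (Set.range fun i => v.getD i 0) (Set.range fun i => (run C v).getD i 0) := by
  induction C generalizing v with
  | nil => exact Set.Subset.refl _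
  | cons g C ih =>
    refine Or.inr ⟨g.eval v, ?_, ?_⟩
    · cases g with
      | add i j => exact ⟨_, ⟨i, rfl⟩, _, ⟨j, rfl⟩, Or.inl rfl⟩
      | sub i j => exact ⟨_, ⟨i, rfl⟩, _, ⟨j, rfl⟩, Or.inr (Or.inl rfl)⟩
      | smul c i => exact ⟨_, ⟨i, rfl⟩, _, ⟨i, rfl⟩, Or.inr (Or.inr ⟨c, rfl⟩)⟩
    · refine (ih (v ++ [g.eval v])).mono le_rfl ?_ (Set.Subset.refl _)
      rintro x ⟨i, rfl⟩
      by_cases hi : i < v.length
      · right
        exact ⟨i, (br_getD_append_lt v _ hi).symm⟩
      · by_cases hi' : i = v.length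
        · left
          rw [hi']
          exact br_getD_append_self v _
        · right
          refine ⟨v.length, ?_⟩
          have h1 : v.getD v.length 0 = 0 := br_getD_ge v le_rfl
          have h2 : (v ++ [g.eval v]).getD i 0 = 0 := br_getD_ge _ (by simp; omega)
          exact h1.trans h2.symm

variable {W : Type*} [AddCommGroup W] [Module ℂ W]

theorem br_getD_map (f : V →ₗ[ℂ] W) (v : List V) (i : ℕ) :
    (v.map f).getD i 0 = f (v.getD i 0) := by
  rw [← map_zero f, List.getD_map]

theorem br_run_map (f : V →ₗ[ℂ] W) (C : List Gate) (v : List V) :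
    run C (v.map f) = (run C v).map f := by
  induction C generalizing v with
  | nil => rfl
  | cons g C ih =>
    rw [run, run, ← ih, List.map_append]
    congr 2
    cases g with
    | add i j => simp only [Gate.eval, br_getD_map, map_add, List.map_cons, List.map_nil]
    | sub i j => simp only [Gate.eval, br_getD_map, map_sub, List.map_cons, List.map_nil]
    | smul c i => simp only [Gate.eval, br_getD_map, map_smul, List.map_cons, List.map_nil]

theorem br_zeta_pow_self {n : ℕ} (hn : 0 < n) : zeta n ^ n = 1 := by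
  have hn' : (n : ℂ) ≠ 0 := by exact_mod_cast hn.ne'
  rw [zeta, ← Complex.exp_nat_mul, mul_div_cancel₀ _ hn', Complex.exp_two_pi_mul_I]

theorem br_dft_mod {n : ℕ} (hn : 0 < n) (x : ℕ → V) (k : ℕ) : dft n x (k % n) = dft n x k := by
  rw [dft, dft]
  refine Finset.sum_congr rfl fun j _ => ?_
  congr 1
  conv_rhs => rw [← Nat.div_add_mod k n]
  rw [Nat.mul_add, pow_add]
  have h1 : zeta n ^ (j * (n * (k / n))) = 1 := by
    have h2 : j * (n * (k / n)) = n * (j * (k / n)) := by ring
    rw [h2, pow_mul, br_zeta_pow_self hn, one_pow]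
  rw [h1, one_mul]

/-- The value computed by a circuit for `F_n` on inputs in an arbitrary module. -/
theorem computes_module {n : ℕ} {C : List Gate} {out : Fin n → ℕ}
    (h : ∀ x : Fin n → ℂ, ∀ k : Fin n,
      (run C (0 :: List.ofFn x)).getD (out k) 0 = ∑ j : Fin n, zeta n ^ ((j : ℕ) * (k : ℕ)) * x j)
    (x : Fin n → V) (k : Fin n) :
    (run C (0 :: List.ofFn x)).getD (out k) 0 =
      ∑ j : Fin n, zeta n ^ ((j : ℕ) * (k : ℕ)) • x j := by
  classical
  let e : Fin n → (Fin n → ℂ) := fun i => Pi.single i 1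
  let w : Fin n → ℂ := (run C (0 :: List.ofFn e)).getD (out k) 0
  have hw : ∀ j, w j = zeta n ^ ((j : ℕ) * (k : ℕ)) := by
    intro j
    have h1 := h (fun i => e i j) k
    have h2 : (0 : ℂ) :: List.ofFn (fun i => e i j) =
        (0 :: List.ofFn e).map (LinearMap.proj (R := ℂ) (φ := fun _ : Fin n => ℂ) j) := by
      simp [List.map_ofFn, Function.comp_def]
    rw [h2, br_run_map, br_getD_map] at h1
    have h3 : w j = ∑ j' : Fin n, zeta n ^ ((j' : ℕ) * (k : ℕ)) * e j' j := h1
    rw [h3, Finset.sum_eq_single j]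
    · simp [e]
    · intro b _ hb
      simp [e, Ne.symm hb]
    · intro hj
      exact absurd (Finset.mem_univ _) hj
  let f : (Fin n → ℂ) →ₗ[ℂ] V := Fintype.linearCombination ℂ x
  have hf : ∀ y, f y = ∑ j, y j • x j := fun y => Fintype.linearCombination_apply ℂ x y
  have h2 : (0 : V) :: List.ofFn x = (0 :: List.ofFn e).map f := by
    rw [List.map_cons, map_zero, List.map_ofFn]
    congr 2
    funext i
    rw [Function.comp_apply, hf, Finset.sum_eq_single i]
    · simp [e]
    · intro b _ hb
      simp [e, hb]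
    · intro hj
      exact absurd (Finset.mem_univ _) hj
  rw [h2, br_run_map, br_getD_map, hf]
  exact Finset.sum_congr rfl fun j _ => by rw [← hw j]

/-- The coordinate functions. -/
noncomputable def coordFun (n : ℕ) (j : ℕ) : (Fin n → ℂ) → ℂ :=
  fun y => if h : j < n then y ⟨j, h⟩ else 0

theorem computes_of_reach {n s : ℕ} {T : Set ((Fin n → ℂ) → ℂ)}
    (h : Reach s ({0} ∪ coordFun n '' Set.Iio n) T)
    (hT : ∀ k < n, dft n (coordFun n) k ∈ T) : ∃ C : List Gate, Computes n C ∧ C.length ≤ s := by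
  have hS : ({0} ∪ coordFun n '' Set.Iio n : Set ((Fin n → ℂ) → ℂ)) ⊆
      Set.range fun i => (0 :: List.ofFn fun i : Fin n => coordFun n i).getD i 0 := by
    rintro x (rfl | ⟨j, hj, rfl⟩)
    · exact ⟨0, rfl⟩
    · refine ⟨j + 1, ?_⟩
      have hj' : j < n := hj
      simp [List.getD_eq_getElem?_getD, hj']
  obtain ⟨C, hC, hCT⟩ := exists_circuit h _ hS
  choose out hout using fun k : Fin n => hCT (hT k k.2)
  refine ⟨C, ⟨out, fun x k => ?_⟩, hC⟩
  have h1 : (run C (0 :: List.ofFn fun i : Fin n => coordFun n i)).getD (out k) 0 =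
      dft n (coordFun n) k := hout k
  let f : ((Fin n → ℂ) → ℂ) →ₗ[ℂ] ℂ := LinearMap.proj x
  have h2 : (0 : ℂ) :: List.ofFn x =
      (0 :: List.ofFn fun i : Fin n => coordFun n i).map f := by
    rw [List.map_cons, map_zero, List.map_ofFn]
    congr 2
    funext i
    simp [f, coordFun]
  rw [h2, br_run_map, br_getD_map, h1]
  change dft n (coordFun n) k x = _
  rw [dft, Finset.sum_apply, Finset.sum_range]
  refine Finset.sum_congr rfl fun j _ => ?_
  simp [coordFun]

theorem exists_computes (n : ℕ) : ∃ C : List Gate, Computes n C := by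
  have h := Reach.biUnion (k := 2 * n) (m := n) (S := {0} ∪ coordFun n '' Set.Iio n)
    (T := fun k => {dft n (coordFun n) k})
    (fun k _ => Reach.comb n (coordFun n) (fun j => zeta n ^ (j * k)) (Or.inl rfl)
      (fun i hi => Or.inr ⟨i, hi, rfl⟩))
  obtain ⟨C, hC, _⟩ := computes_of_reach h (by
    intro k hk
    simp only [Set.mem_iUnion, Set.mem_Iio]
    exact ⟨k, hk, rfl⟩)
  exact ⟨C, hC⟩

theorem exists_computes_length (n : ℕ) : ∃ C : List Gate, Computes n C ∧ C.length = L n := by
  have h : {s | ∃ C : List Gate, Computes n C ∧ C.length = s}.Nonempty := by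
    obtain ⟨C, hC⟩ := exists_computes n
    exact ⟨C.length, C, hC, rfl⟩
  exact Nat.sInf_mem h

theorem dc_L {n : ℕ} (hn : 0 < n) : DC n (L n) := by
  obtain ⟨C, ⟨out, hC⟩, hl⟩ := exists_computes_length n
  intro V _ _ x
  rw [← hl]
  refine (reach_of_circuit C (0 :: List.ofFn fun i : Fin n => x i)).mono le_rfl ?_ ?_
  · rintro y ⟨i, rfl⟩
    rcases i with _ | i
    · left
      rfl
    · by_cases hi : i < n
      · right
        exact ⟨i, hi, by simp [List.getD_eq_getElem?_getD, hi]⟩
      · left
        exact br_getD_ge _ (by simp; omega)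
  · rintro y ⟨k, rfl⟩
    refine ⟨out ⟨k % n, Nat.mod_lt _ hn⟩, ?_⟩
    change (run C (0 :: List.ofFn fun i : Fin n => x i)).getD (out ⟨k % n, Nat.mod_lt _ hn⟩) 0 = _
    rw [computes_module hC, ← br_dft_mod hn, dft, Finset.sum_range]

theorem L_le {n s : ℕ} (hn : 0 < n) (h : DC n s) : L n ≤ s := by
  obtain ⟨C, hC, hl⟩ := computes_of_reach (T := Set.range (dft n (coordFun n)))
    (h _ (coordFun n)) (fun k _ => ⟨k, rfl⟩)
  have h1 : C.length ∈ {s | ∃ C : List Gate, Computes n C ∧ C.length = s} := ⟨C, hC, rfl⟩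
  exact (Nat.sInf_le h1).trans hl

end Vale.P344
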